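import Crest.Agent.R322.Cover

/-! Row 322: streaming machines and the block estimate for the Morrey norm. -/

set_option autoImplicit false

namespace Crest.Agent.R322

open MeasureTheory ProbabilityTheory Filter Topology Module
open scoped ENNReal RealInnerProductSpace

/-- run a machine for `k` steps from time `t` -/
def run {S Z : Type} (stp : ℕ → S → Z → S) : (k : ℕ) → ℕ → S → (Fin k → Z) → S
  | 0, _, σ, _ => σ
  | k + 1, t, σ, z => run stp k (t + 1) (stp t σ (z 0)) (Fin.tail z)

lemma foldl_eq_run {S Z : Type} (stp : ℕ → S → Z → S) (k : ℕ) : ∀ (t : ℕ) (σ : S) (z : Fin k → Z),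
    (List.finRange k).foldl (fun st (i : Fin k) => stp (t + i) st (z i)) σ = run stp k t σ z := by
  induction k with
  | zero => intro t σ z; simp [run]
  | succ k ih =>
    intro t σ z
    rw [List.finRange_succ, List.foldl_cons, List.foldl_map, run, ← ih]
    simp only [Fin.val_zero, add_zero, Fin.val_succ, Fin.tail]
    congr 1
    funext st i
    congr 1
    ring

variable {S : Type} [MeasurableSpace S] [MeasurableSingletonClass S] [Countable S]

lemma measurable_run {Y Z : Type} [MeasurableSpace Y] [MeasurableSpace Z]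
    (stp : Y → ℕ → S → Z → S) (h : ∀ t σ, Measurable fun p : Y × Z => stp p.1 t σ p.2) (k : ℕ) :
    ∀ (t : ℕ) (σf : Y → S) (zf : Y → Fin k → Z), Measurable σf → Measurable zf →
      Measurable fun y => run (stp y) k t (σf y) (zf y) := by
  induction k with
  | zero => intro t σf zf h1 _; exact h1
  | succ k ih =>
    intro t σf zf h1 h2
    simp only [run]
    refine ih (t + 1) (fun y => stp y t (σf y) (zf y 0)) (fun y => Fin.tail (zf y)) ?_ ?_
    · have m1 : Measurable fun p : Y × S => stp p.1 t p.2 (zf p.1 0) :=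
        measurable_from_prod_countable_left fun σ =>
          (h t σ).comp (measurable_id.prodMk ((measurable_pi_apply 0).comp h2))
      exact m1.comp (measurable_id.prodMk h1)
    · exact measurable_pi_lambda _ fun i => (measurable_pi_apply _).comp h2

variable {E : Type} [NormedAddCommGroup E] [InnerProductSpace ℝ E] [FiniteDimensional ℝ E]
  [MeasurableSpace E] [BorelSpace E]

/-- the value function -/
noncomputable def val (stp : ℕ → S → E × ℝ → S) (k t : ℕ) (W : S → E → ℝ≥0∞) (σ : S) (s : E) :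
    ℝ≥0∞ :=
  ∫⁻ X : Fin k → E, W (run stp k t σ fun a => (X a, ⟪X a, s⟫)) s
    ∂(Measure.pi fun _ => stdGaussian E)

section
variable {stp : ℕ → S → E × ℝ → S} (hm : ∀ t σ, Measurable (stp t σ))
include hm

lemma measurable_valI {W : S → E → ℝ≥0∞} (hW : ∀ σ, Measurable (W σ)) (k t : ℕ) (σ : S) :
    Measurable fun p : E × (Fin k → E) => W (run stp k t σ fun a => (p.2 a, ⟪p.2 a, p.1⟫)) p.1 := by
  have m1 : Measurable fun p : E × (Fin k → E) => run stp k t σ fun a => (p.2 a, ⟪p.2 a, p.1⟫) :=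
    measurable_run (Y := E × (Fin k → E)) (fun _ => stp) (fun t σ => (hm t σ).comp measurable_snd)
      k t _ _ measurable_const (by fun_prop)
  have m2 : Measurable fun p : S × E => W p.1 p.2 := measurable_from_prod_countable_right hW
  exact m2.comp (m1.prodMk measurable_fst)

lemma measurable_val {W : S → E → ℝ≥0∞} (hW : ∀ σ, Measurable (W σ)) (k t : ℕ) (σ : S) :
    Measurable (val stp k t W σ) :=
  (measurable_valI hm hW k t σ).lintegral_prod_right'

lemma val_succ {W : S → E → ℝ≥0∞} (hW : ∀ σ, Measurable (W σ)) (k t : ℕ) (σ : S) (s : E) :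
    val stp (k + 1) t W σ s =
      ∫⁻ x, val stp k (t + 1) W (stp t σ (x, ⟪x, s⟫)) s ∂(stdGaussian E) := by
  unfold val
  have m : Measurable fun X : Fin (k + 1) → E =>
      W (run stp (k + 1) t σ fun a => (X a, ⟪X a, s⟫)) s :=
    (measurable_valI hm hW (k + 1) t σ).comp (measurable_const.prodMk measurable_id)
  rw [lintegral_pi_succ _ k _ m]
  rfl

lemma val_add {W : S → E → ℝ≥0∞} (hW : ∀ σ, Measurable (W σ)) (m k : ℕ) :
    ∀ (t : ℕ) (σ : S) (s : E), val stp (k + m) t W σ s = val stp k t (val stp m (t + k) W) σ s := by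
  induction k with
  | zero =>
    intro t σ s
    rw [zero_add, add_zero]
    conv_rhs => unfold val
    simp [run, val]
  | succ k ih =>
    intro t σ s
    rw [show k + 1 + m = k + m + 1 by ring, val_succ hm hW,
      val_succ hm (fun σ => measurable_val hm hW _ _ σ)]
    simp only [ih]
    rw [show t + 1 + k = t + (k + 1) by ring]

theorem block (U : Measure E) [SFinite U] {W : S → E → ℝ≥0∞} (hW : ∀ σ, Measurable (W σ))
    {η Γ : ℝ} (hη : 0 < η) (hΓ : 0 < Γ) {j n k : ℕ} (hj : k + 1 + 3 * n ≤ j)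
    (hM : ∀ σ c r, 0 < r → ∫⁻ s in Metric.closedBall c r, W σ s ∂U ≤ ENNReal.ofReal (η * r ^ j))
    (t : ℕ) (σ : S) (Θ : Finset S) (hΘ : (Θ.card : ℝ) ≤ Γ ^ n) (hrun : ∀ z, run stp k t σ z ∈ Θ)
    (c : E) {ρ : ℝ} (hρ : 0 < ρ) :
    ∫⁻ s in Metric.closedBall c ρ, val stp k t W σ s ∂U ≤
      ENNReal.ofReal ((1 + Γ * (1 + 2 ^ (k + j + 1)) * (5 ^ finrank ℝ E * 32 ^ k)) * η * ρ ^ j) := by
  obtain ⟨Ω, mΩ, hΩ, hgr⟩ := exists_range k c hρ
  set φ : (Fin k → E) × (Fin k → ℝ) → S := fun z => run stp k t σ fun a => (z.1 a, z.2 a) with hφ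
  have mφ : Measurable φ :=
    measurable_run (Y := (Fin k → E) × (Fin k → ℝ)) (fun _ => stp)
      (fun t σ => (hm t σ).comp measurable_snd) k t _ _ measurable_const (by fun_prop)
  set A : S → Set ((Fin k → E) × (Fin k → ℝ)) := fun q => φ ⁻¹' {q} ∩ Ω with hA
  have mA : ∀ q, MeasurableSet (A q) := fun q => (mφ (measurableSet_singleton q)).inter mΩ
  set γk := (Measure.pi fun _ : Fin k => stdGaussian E) with hγ
  have mB : MeasurableSet (Metric.closedBall c ρ) := Metric.isClosed_closedBall.measurableSet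
  have mX : ∀ q s, MeasurableSet {X : Fin k → E | gr X s ∈ A q} := fun q s =>
    ((measurable_gr k).comp (measurable_const.prodMk measurable_id)) (mA q)
  have mγ : ∀ q, Measurable fun s : E => γk {X | gr X s ∈ A q} := fun q =>
    measurable_measure_prodMk_left (measurable_gr k (mA q))
  have h1 : ∀ s ∈ Metric.closedBall c ρ, val stp k t W σ s ≤
      ∑ q ∈ Θ, W q s * γk {X | gr X s ∈ A q} := by
    intro s hs
    simp only [← lintegral_indicator_const (mX _ s)]
    rw [← lintegral_finsetSum _ fun q _ => measurable_const.indicator (mX q s)]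
    refine lintegral_mono fun X => ?_
    refine le_trans ?_ (Finset.single_le_sum
      (f := fun q => {X : Fin k → E | gr X s ∈ A q}.indicator (fun _ => W q s) X)
      (fun _ _ => zero_le) (hrun fun a => (X a, ⟪X a, s⟫)))
    simp only
    rw [Set.indicator_of_mem (by exact ⟨rfl, hgr X s hs⟩)]
  set D0 : ℝ := (1 + 2 ^ (k + j + 1)) * (η * ρ ^ j * ρ⁻¹ ^ k) with hD0
  have hD0p : 0 < D0 := by positivity
  have h2 : ∀ q, ∫⁻ s in Metric.closedBall c ρ, W q s * γk {X | gr X s ∈ A q} ∂U ≤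
      ENNReal.ofReal (Γ * D0) * lam E k (A q) + ENNReal.ofReal (η * ρ ^ j / Γ ^ n) := by
    intro q
    have hν : ∀ c r, 0 < r → U.withDensity (W q) (Metric.closedBall c r) ≤
        ENNReal.ofReal (η * r ^ j) := by
      intro c r hr
      rw [withDensity_apply _ Metric.isClosed_closedBall.measurableSet]
      exact hM q c r hr
    have h3 := restricted k ((U.withDensity (W q)).restrict (Metric.closedBall c ρ))
      (D := ENNReal.ofReal D0) (fun a l hl => riesz_le _ hη.le hj hν hρ a l hl)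
      (θ := ENNReal.ofReal (Γ * D0)) (by simpa using by positivity) ENNReal.ofReal_ne_top (A q)
    rw [setLIntegral_withDensity_eq_setLIntegral_mul _ (hW q) (mγ q) mB,
      Measure.restrict_apply_univ] at h3
    refine h3.trans (add_le_add le_rfl ?_)
    refine (mul_le_mul_left (mul_le_mul_right (hν c ρ hρ) _) _).trans (le_of_eq ?_)
    rw [← ENNReal.ofReal_pow hD0p.le, ← ENNReal.ofReal_pow (by positivity),
      ← ENNReal.ofReal_inv_of_pos (by positivity), ← ENNReal.ofReal_mul (by positivity),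
      ← ENNReal.ofReal_mul (by positivity)]
    congr 1
    rw [mul_pow Γ D0]
    clear_value D0
    field_simp
  have h4 : ∑ q ∈ Θ, lam E k (A q) ≤ lam E k Ω := by
    rw [← measure_biUnion_finset (fun q _ q' _ hne => ?_) fun q _ => mA q]
    · exact measure_mono (Set.iUnion₂_subset fun q _ => Set.inter_subset_right)
    · exact Set.disjoint_left.mpr fun z h1 h2 => hne (h1.1.symm.trans h2.1)
  calc ∫⁻ s in Metric.closedBall c ρ, val stp k t W σ s ∂U
      ≤ ∫⁻ s in Metric.closedBall c ρ, ∑ q ∈ Θ, W q s * γk {X | gr X s ∈ A q} ∂U :=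
        setLIntegral_mono' mB h1
    _ = ∑ q ∈ Θ, ∫⁻ s in Metric.closedBall c ρ, W q s * γk {X | gr X s ∈ A q} ∂U :=
        lintegral_finsetSum _ fun q _ => (hW q).mul (mγ q)
    _ ≤ ∑ q ∈ Θ, (ENNReal.ofReal (Γ * D0) * lam E k (A q) + ENNReal.ofReal (η * ρ ^ j / Γ ^ n)) :=
        Finset.sum_le_sum fun q _ => h2 q
    _ = ENNReal.ofReal (Γ * D0) * ∑ q ∈ Θ, lam E k (A q) +
          ENNReal.ofReal (Θ.card * (η * ρ ^ j / Γ ^ n)) := by
        rw [Finset.sum_add_distrib, Finset.mul_sum, Finset.sum_const, nsmul_eq_mul,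
          ENNReal.ofReal_mul (Nat.cast_nonneg _), ENNReal.ofReal_natCast]
    _ ≤ ENNReal.ofReal (Γ * D0) * ENNReal.ofReal (5 ^ finrank ℝ E * (32 * ρ) ^ k) +
          ENNReal.ofReal (η * ρ ^ j) := by
        refine add_le_add (mul_le_mul_right (h4.trans hΩ) _) (ENNReal.ofReal_le_ofReal ?_)
        calc (Θ.card : ℝ) * (η * ρ ^ j / Γ ^ n) ≤ Γ ^ n * (η * ρ ^ j / Γ ^ n) :=
              mul_le_mul_of_nonneg_right hΘ (by positivity)
          _ = η * ρ ^ j := by field_simp
    _ = _ := by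
        rw [← ENNReal.ofReal_mul (by positivity),
          ← ENNReal.ofReal_add (by positivity) (by positivity)]
        congr 1
        rw [hD0, mul_pow, inv_pow]
        field_simp
        ring

theorem blocks (U : Measure E) [SFinite U] {W : S → E → ℝ≥0∞} (hW : ∀ σ, Measurable (W σ))
    {η Γ C : ℝ} (hη : 0 < η) (hΓ : 0 < Γ) {j n k : ℕ} (hj : k + 1 + 3 * n ≤ j)
    (hM : ∀ σ c r, 0 < r → ∫⁻ s in Metric.closedBall c r, W σ s ∂U ≤ ENNReal.ofReal (η * r ^ j))
    (hΘ : ∀ k' ≤ k, ∀ t σ, ∃ Θ : Finset S, (Θ.card : ℝ) ≤ Γ ^ n ∧ ∀ z, run stp k' t σ z ∈ Θ)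
    (hC : 1 + Γ * (1 + 2 ^ (k + j + 1)) * (5 ^ finrank ℝ E * 32 ^ k) ≤ C) (B : ℕ) :
    ∀ m ≤ B * k, ∀ t σ c r, 0 < r → ∫⁻ s in Metric.closedBall c r, val stp m t W σ s ∂U ≤
      ENNReal.ofReal (C ^ B * η * r ^ j) := by
  have hC0 : 0 < C := lt_of_lt_of_le (by positivity) hC
  induction B with
  | zero =>
    intro m hm' t σ c r hr
    obtain rfl : m = 0 := by omega
    simpa [val, run] using hM σ c r hr
  | succ B ih =>
    intro m hm' t σ c r hr
    obtain ⟨k', m', hk', hm'', rfl⟩ : ∃ k' m', k' ≤ k ∧ m' ≤ B * k ∧ m = k' + m' := by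
      refine ⟨min m k, m - min m k, min_le_right _ _, ?_, by omega⟩
      rw [add_mul, one_mul] at hm'
      omega
    simp only [val_add hm hW]
    obtain ⟨Θ, h1, h2⟩ := hΘ k' hk' t σ
    refine (block hm U (fun σ => measurable_val hm hW _ _ σ) (η := C ^ B * η) (by positivity) hΓ
      (show k' + 1 + 3 * n ≤ j by omega) (fun σ c r hr => ih m' hm'' _ σ c r hr) t σ Θ h1 h2 c
      hr).trans (ENNReal.ofReal_le_ofReal ?_)
    have h3 : 1 + Γ * (1 + 2 ^ (k' + j + 1)) * (5 ^ finrank ℝ E * 32 ^ k') ≤ C := by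
      refine le_trans ?_ hC
      gcongr <;> norm_num
    calc (1 + Γ * (1 + 2 ^ (k' + j + 1)) * (5 ^ finrank ℝ E * 32 ^ k')) * (C ^ B * η) * r ^ j
        ≤ C * (C ^ B * η) * r ^ j := by gcongr
      _ = _ := by ring

end

end Crest.Agent.R322
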