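import Crest.Agent.R322.Slice

/-! Row 322: nets, tubes and the range of the measurements. -/

set_option autoImplicit false

namespace Crest.Agent.R322

open MeasureTheory ProbabilityTheory Filter Topology Module
open scoped ENNReal RealInnerProductSpace

lemma exists_net (F : Type*) [NormedAddCommGroup F] [NormedSpace ℝ F] [FiniteDimensional ℝ F] :
    ∃ T : Finset F, T.card ≤ 5 ^ finrank ℝ F ∧ (∀ t ∈ T, ‖t‖ ≤ 2) ∧
      ∀ v, ‖v‖ ≤ 2 → ∃ t ∈ T, ‖v - t‖ ≤ 1 := by
  classical
  set P : ℕ → Prop := fun m => ∃ T : Finset F, T.card = m ∧ (∀ c ∈ T, ‖c‖ ≤ 2) ∧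
    ∀ c ∈ T, ∀ d ∈ T, c ≠ d → 1 ≤ ‖c - d‖ with hP
  have h0 : P 0 := ⟨∅, by simp⟩
  obtain ⟨T, hT, h1, h2⟩ : P (Nat.findGreatest P (5 ^ finrank ℝ F)) :=
    Nat.findGreatest_spec (Nat.zero_le _) h0
  refine ⟨T, Besicovitch.card_le_of_separated T h1 h2, h1, fun v hv => ?_⟩
  by_contra hc
  push Not at hc
  have hvT : v ∉ T := fun h => by
    have := hc v h
    simp only [sub_self, norm_zero] at this
    linarith
  have h3 : ∀ c ∈ insert v T, ‖c‖ ≤ 2 := by
    intro c hc'
    rcases Finset.mem_insert.mp hc' with rfl | h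
    · exact hv
    · exact h1 c h
  have h4 : ∀ c ∈ insert v T, ∀ d ∈ insert v T, c ≠ d → 1 ≤ ‖c - d‖ := by
    intro c hc' d hd hne
    rcases Finset.mem_insert.mp hc' with rfl | h
    · rcases Finset.mem_insert.mp hd with rfl | h'
      · exact absurd rfl hne
      · exact (hc d h').le
    · rcases Finset.mem_insert.mp hd with rfl | h'
      · rw [norm_sub_rev]
        exact (hc c h).le
      · exact h2 c h d h' hne
  have h5 := Besicovitch.card_le_of_separated _ h3 h4
  have h6 : P (insert v T).card := ⟨_, rfl, h3, h4⟩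
  have := Nat.le_findGreatest h5 h6
  rw [Finset.card_insert_of_notMem hvT] at this
  omega

variable {E : Type} [NormedAddCommGroup E] [InnerProductSpace ℝ E] [FiniteDimensional ℝ E]
  [MeasurableSpace E] [BorelSpace E]

/-- a piece of the tube around an affine subspace -/
def tube (V : Submodule ℝ E) (a c : E) (R r : ℝ) : Set E :=
  {s | ‖(s - a) - V.starProjection (s - a)‖ ≤ r ∧ ‖V.starProjection (s - a) - c‖ ≤ R}

lemma measurableSet_tube (V : Submodule ℝ E) (a c : E) (R r : ℝ) :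
    MeasurableSet (tube V a c R r) := by
  have m1 : Measurable fun s : E => ‖(s - a) - V.starProjection (s - a)‖ := by fun_prop
  have m2 : Measurable fun s : E => ‖V.starProjection (s - a) - c‖ := by fun_prop
  exact (measurableSet_le m1 measurable_const).inter (measurableSet_le m2 measurable_const)

omit [BorelSpace E] in
lemma tube_le (ν : Measure E) {η : ℝ} {j n : ℕ}
    (hν : ∀ c r, 0 < r → ν (Metric.closedBall c r) ≤ ENNReal.ofReal (η * r ^ j))
    (V : Submodule ℝ E) (hV : finrank ℝ V ≤ n) (a : E) {r : ℝ} (hr : 0 < r) (l : ℕ) :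
    ∀ c ∈ V, ν (tube V a c (2 ^ l * r) r) ≤ (5 ^ n) ^ l * ENNReal.ofReal (η * (2 * r) ^ j) := by
  obtain ⟨T, hT, -, hcov⟩ := exists_net V
  induction l with
  | zero =>
    intro c _
    rw [pow_zero, pow_zero, one_mul, one_mul]
    refine le_trans (measure_mono fun s hs => ?_) (hν (a + c) _ (by positivity))
    rw [mem_closedBall_iff_norm]
    have := norm_add_le (s - a - V.starProjection (s - a)) (V.starProjection (s - a) - c)
    rw [show s - a - V.starProjection (s - a) + (V.starProjection (s - a) - c) = s - (a + c) by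
      abel] at this
    linarith [hs.1, hs.2]
  | succ l ih =>
    intro c hc
    have hR : 0 < 2 ^ l * r := by positivity
    have hsub : tube V a c (2 ^ (l + 1) * r) r ⊆
        ⋃ t ∈ T, tube V a (c + (2 ^ l * r) • (t : E)) (2 ^ l * r) r := by
      intro s hs
      have hm : (2 ^ l * r)⁻¹ • (V.starProjection (s - a) - c) ∈ V :=
        V.smul_mem _ (V.sub_mem (V.starProjection_apply_mem _) hc)
      obtain ⟨t, ht, h1⟩ := hcov ⟨_, hm⟩ (by
        rw [Submodule.coe_norm, norm_smul, norm_inv, Real.norm_of_nonneg hR.le,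
          inv_mul_le_iff₀ hR]
        refine hs.2.trans (le_of_eq ?_)
        ring)
      refine Set.mem_biUnion ht ⟨hs.1, ?_⟩
      rw [Submodule.coe_norm, Submodule.coe_sub] at h1
      have e : V.starProjection (s - a) - (c + (2 ^ l * r) • (t : E)) =
          (2 ^ l * r) • ((2 ^ l * r)⁻¹ • (V.starProjection (s - a) - c) - (t : E)) := by
        rw [smul_sub, smul_smul, mul_inv_cancel₀ hR.ne', one_smul]
        abel
      rw [e, norm_smul, Real.norm_of_nonneg hR.le]
      exact mul_le_of_le_one_right hR.le h1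
    refine (measure_mono hsub).trans ((measure_biUnion_finset_le _ _).trans ?_)
    refine (Finset.sum_le_card_nsmul _ _ _ fun t _ =>
      ih _ (V.add_mem hc (V.smul_mem _ t.2))).trans ?_
    rw [nsmul_eq_mul, pow_succ' _ l, mul_assoc]
    refine mul_le_mul_left ?_ _
    exact_mod_cast hT.trans (Nat.pow_le_pow_right (by norm_num) hV)

omit [FiniteDimensional ℝ E] [MeasurableSpace E] [BorelSpace E] in
lemma finrank_sp (l : List E) : finrank ℝ (sp l) ≤ l.length := by
  classical
  have h := finrank_span_finset_le_card (R := ℝ) l.toFinset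
  rw [List.coe_toFinset] at h
  exact h.trans l.toFinset_card_le

lemma layer {ρ δ : ℝ} (hρ : 0 < ρ) (hδ : 0 ≤ δ) (k : ℕ) :
    (ENNReal.ofReal δ)⁻¹ ^ k ≤ ENNReal.ofReal (ρ⁻¹ ^ k) +
      ∑' l : ℕ, if δ ≤ ρ / 2 ^ l then ENNReal.ofReal ((2 ^ (l + 1) * ρ⁻¹) ^ k) else 0 := by
  rcases le_or_gt ρ δ with h | h
  · refine le_trans ?_ le_self_add
    rw [← ENNReal.ofReal_inv_of_pos (hρ.trans_le h), ← ENNReal.ofReal_pow (by positivity)]
    exact ENNReal.ofReal_le_ofReal (pow_le_pow_left₀ (by positivity) (inv_anti₀ hρ h) k)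
  rcases hδ.eq_or_lt with h0 | h0
  · rcases Nat.eq_zero_or_pos k with rfl | hk
    · simp
    refine le_trans ?_ le_add_self
    have h1 : ∑' _ : ℕ, ENNReal.ofReal (ρ⁻¹ ^ k) = ⊤ :=
      ENNReal.tsum_const_eq_top_of_ne_zero (by simpa using by positivity)
    refine le_top.trans (h1.ge.trans (ENNReal.tsum_le_tsum fun l => ?_))
    rw [if_pos (by rw [← h0]; positivity)]
    refine ENNReal.ofReal_le_ofReal (pow_le_pow_left₀ (by positivity) ?_ k)
    exact le_mul_of_one_le_left (by positivity) (one_le_pow₀ (by norm_num))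
  obtain ⟨l, h1, h2⟩ := exists_nat_pow_near_of_lt_one (x := δ / ρ) (y := 1 / 2) (by positivity)
    ((div_le_one hρ).mpr h.le) (by norm_num) (by norm_num)
  refine le_trans ?_ (le_trans (ENNReal.le_tsum l) le_add_self)
  rw [one_div, inv_pow, div_le_iff₀ hρ] at h2
  rw [one_div, inv_pow, lt_div_iff₀ hρ] at h1
  rw [if_pos (by rw [div_eq_inv_mul]; exact h2), ← ENNReal.ofReal_inv_of_pos h0,
    ← ENNReal.ofReal_pow (by positivity)]
  refine ENNReal.ofReal_le_ofReal (pow_le_pow_left₀ (by positivity) ?_ k)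
  have := inv_anti₀ (by positivity) h1.le
  rwa [mul_inv, inv_inv] at this

lemma riesz_le (ν : Measure E) {η : ℝ} (hη : 0 ≤ η) {j n k : ℕ} (hj : k + 1 + 3 * n ≤ j)
    (hν : ∀ c r, 0 < r → ν (Metric.closedBall c r) ≤ ENNReal.ofReal (η * r ^ j))
    {c : E} {ρ : ℝ} (hρ : 0 < ρ) (a : E) (l : List E) (hl : l.length ≤ n) :
    ∫⁻ s, (ENNReal.ofReal (dd l (s - a)))⁻¹ ^ k ∂(ν.restrict (Metric.closedBall c ρ)) ≤
      ENNReal.ofReal ((1 + 2 ^ (k + j + 1)) * (η * ρ ^ j * ρ⁻¹ ^ k)) := by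
  set V := sp l with hV
  set c' := V.starProjection (c - a) with hc'
  have hc'V : c' ∈ V := V.starProjection_apply_mem _
  set t : ℕ → E → ℝ≥0∞ := fun i => (tube V a c' (2 ^ i * (ρ / 2 ^ i)) (ρ / 2 ^ i)).indicator
    fun _ => ENNReal.ofReal ((2 ^ (i + 1) * ρ⁻¹) ^ k) with ht
  have mt : ∀ i, Measurable (t i) := fun i =>
    measurable_const.indicator (measurableSet_tube _ _ _ _ _)
  have h1 : ∀ s ∈ Metric.closedBall c ρ, (ENNReal.ofReal (dd l (s - a)))⁻¹ ^ k ≤
      ENNReal.ofReal (ρ⁻¹ ^ k) + ∑' i, t i s := by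
    intro s hs
    refine (layer hρ (norm_nonneg _) k).trans (add_le_add le_rfl (ENNReal.tsum_le_tsum fun i => ?_))
    split_ifs with h
    · have : s ∈ tube V a c' (2 ^ i * (ρ / 2 ^ i)) (ρ / 2 ^ i) := by
        refine ⟨h, ?_⟩
        rw [hc', ← map_sub, mul_div_cancel₀ _ (by positivity), sub_sub_sub_cancel_right]
        exact (V.norm_starProjection_apply_le _).trans (mem_closedBall_iff_norm.mp hs)
      simp only [ht, Set.indicator_of_mem this, le_refl]
    · exact zero_le
  have h2 : ∀ i, ∫⁻ s, t i s ∂ν ≤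
      ENNReal.ofReal (2 ^ (k + j) * (η * ρ ^ j * ρ⁻¹ ^ k)) * 2⁻¹ ^ i := by
    intro i
    simp only [ht]
    rw [lintegral_indicator_const (measurableSet_tube _ _ _ _ _)]
    refine (mul_le_mul_right (tube_le ν hν V ((finrank_sp l).trans hl) a (by positivity) i c'
      hc'V) _).trans ?_
    have e1 : ((5 : ℝ≥0∞) ^ n) ^ i = ENNReal.ofReal ((5 ^ n) ^ i) := by
      rw [ENNReal.ofReal_pow (by positivity), ENNReal.ofReal_pow (by positivity)]
      norm_num
    have e2 : (2⁻¹ : ℝ≥0∞) ^ i = ENNReal.ofReal (2⁻¹ ^ i) := by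
      rw [ENNReal.ofReal_pow (by positivity), ENNReal.ofReal_inv_of_pos (by norm_num)]
      norm_num
    rw [e1, e2, ← ENNReal.ofReal_mul (by positivity), ← ENNReal.ofReal_mul (by positivity),
      ← ENNReal.ofReal_mul (by positivity)]
    refine ENNReal.ofReal_le_ofReal ?_
    have h3 : (2 : ℝ) ^ k * 5 ^ n * 2 ≤ 2 ^ j := by
      calc (2 : ℝ) ^ k * 5 ^ n * 2 ≤ 2 ^ k * (2 ^ 3) ^ n * 2 := by
            gcongr
            norm_num
        _ = 2 ^ (k + 1 + 3 * n) := by rw [← pow_mul]; ring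
        _ ≤ 2 ^ j := pow_le_pow_right₀ (by norm_num) hj
    have h4 : ((2 : ℝ) ^ k * 5 ^ n * (2 ^ j)⁻¹) ^ i ≤ 2⁻¹ ^ i := by
      refine pow_le_pow_left₀ (by positivity) ?_ i
      rw [← div_eq_mul_inv, div_le_iff₀ (by positivity)]
      linarith
    calc (2 ^ (i + 1) * ρ⁻¹) ^ k * ((5 ^ n) ^ i * (η * (2 * (ρ / 2 ^ i)) ^ j))
        = 2 ^ (k + j) * (η * ρ ^ j * ρ⁻¹ ^ k) * ((2 : ℝ) ^ k * 5 ^ n * (2 ^ j)⁻¹) ^ i := by
          simp only [div_eq_mul_inv, mul_pow, inv_pow, ← pow_mul]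
          ring
      _ ≤ _ := mul_le_mul_of_nonneg_left h4 (by positivity)
  calc ∫⁻ s, (ENNReal.ofReal (dd l (s - a)))⁻¹ ^ k ∂(ν.restrict (Metric.closedBall c ρ))
      ≤ ∫⁻ s, (ENNReal.ofReal (ρ⁻¹ ^ k) + ∑' i, t i s) ∂(ν.restrict (Metric.closedBall c ρ)) :=
        setLIntegral_mono' Metric.isClosed_closedBall.measurableSet h1
    _ = ENNReal.ofReal (ρ⁻¹ ^ k) * ν (Metric.closedBall c ρ) +
          ∑' i, ∫⁻ s, t i s ∂(ν.restrict (Metric.closedBall c ρ)) := by
        rw [lintegral_add_left measurable_const, lintegral_const, Measure.restrict_apply_univ,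
          lintegral_tsum fun i => (mt i).aemeasurable]
    _ ≤ ENNReal.ofReal (ρ⁻¹ ^ k) * ENNReal.ofReal (η * ρ ^ j) +
          ∑' i, ENNReal.ofReal (2 ^ (k + j) * (η * ρ ^ j * ρ⁻¹ ^ k)) * 2⁻¹ ^ i :=
        add_le_add (mul_le_mul_right (hν c ρ hρ) _) (ENNReal.tsum_le_tsum fun i =>
          (lintegral_mono' Measure.restrict_le_self le_rfl).trans (h2 i))
    _ = _ := by
        rw [ENNReal.tsum_mul_left, ENNReal.tsum_geometric_two, ← ENNReal.ofReal_mul (by positivity),
          ← ENNReal.ofReal_ofNat 2, ← ENNReal.ofReal_mul (by positivity),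
          ← ENNReal.ofReal_add (by positivity) (by positivity)]
        congr 1
        ring

lemma lintegral_exp_abs {ρ : ℝ} (hρ : 0 < ρ) (c : ℝ) :
    ∫⁻ y, ENNReal.ofReal (Real.exp (-(|y - c| / ρ))) = ENNReal.ofReal (2 * ρ) := by
  rw [lintegral_sub_right_eq_self (fun y => ENNReal.ofReal (Real.exp (-(|y| / ρ))))]
  have h1 : IntegrableOn (fun y => Real.exp (-(y / ρ))) (Set.Ioi 0) := by
    have := exp_neg_integrableOn_Ioi 0 (inv_pos.mpr hρ)
    refine this.congr_fun (fun y _ => ?_) measurableSet_Ioi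
    simp only
    congr 1
    ring
  have h2 : Integrable fun y => Real.exp (-(|y| / ρ)) := by
    rw [← integrableOn_univ, ← Set.Iic_union_Ioi (a := (0 : ℝ))]
    refine IntegrableOn.union ?_ (h1.congr_fun (fun y hy => ?_) measurableSet_Ioi)
    · have := integrableOn_exp_mul_Iic (inv_pos.mpr hρ) 0
      refine this.congr_fun (fun y hy => ?_) measurableSet_Iic
      simp only
      rw [abs_of_nonpos hy]
      congr 1
      ring
    · simp only
      rw [abs_of_pos hy]
  rw [← ofReal_integral_eq_lintegral_ofReal h2 (Eventually.of_forall fun y => (Real.exp_pos _).le),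
    integral_comp_abs (f := fun y => Real.exp (-(y / ρ)))]
  congr 2
  have := integral_exp_mul_Ioi (a := -ρ⁻¹) (by simpa using hρ) 0
  simp only [mul_zero, Real.exp_zero] at this
  rw [show (fun y => Real.exp (-(y / ρ))) = fun y => Real.exp (-ρ⁻¹ * y) by
    funext y; congr 1; ring, this]
  field_simp

lemma gauss_exp_abs (t : E) (ht : ‖t‖ ≤ 2) :
    ∫⁻ x, ENNReal.ofReal (Real.exp |⟪t, x⟫|) ∂(stdGaussian E) ≤ ENNReal.ofReal 16 := by
  have m : Measurable fun y : ℝ => ENNReal.ofReal (Real.exp |y|) := by fun_prop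
  rw [← lintegral_map m (by fun_prop), map_inner]
  set v := (‖t‖ ^ 2).toNNReal with hv
  have hv4 : (v : ℝ) ≤ 4 := by
    rw [hv, Real.coe_toNNReal _ (sq_nonneg _)]
    nlinarith [norm_nonneg t]
  have key : ∀ b : ℝ, b ^ 2 = 1 → ∫⁻ y, ENNReal.ofReal (Real.exp (b * y)) ∂(gaussianReal 0 v) ≤
      ENNReal.ofReal 8 := by
    intro b hb
    rw [← ofReal_integral_eq_lintegral_ofReal (integrable_exp_mul_gaussianReal b)
      (Eventually.of_forall fun y => (Real.exp_pos _).le)]
    refine ENNReal.ofReal_le_ofReal ?_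
    have := congrFun (mgf_id_gaussianReal (μ := 0) (v := v)) b
    simp only [mgf, id] at this
    rw [this, hb]
    calc Real.exp (0 * b + v * 1 / 2) ≤ Real.exp (1 + 1) := Real.exp_le_exp.mpr (by linarith)
      _ = Real.exp 1 * Real.exp 1 := Real.exp_add 1 1
      _ ≤ 8 := by nlinarith [Real.exp_one_lt_d9, Real.exp_pos 1]
  calc ∫⁻ y, ENNReal.ofReal (Real.exp |y|) ∂(gaussianReal 0 v)
      ≤ ∫⁻ y, (ENNReal.ofReal (Real.exp (1 * y)) + ENNReal.ofReal (Real.exp (-1 * y)))
          ∂(gaussianReal 0 v) := by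
        refine lintegral_mono fun y => ?_
        rcases abs_choice y with h | h
        · simp only [h, one_mul]
          exact le_self_add
        · simp only [h, neg_mul, one_mul]
          exact le_add_self
    _ ≤ ENNReal.ofReal 8 + ENNReal.ofReal 8 := by
        rw [lintegral_add_left (by fun_prop)]
        exact add_le_add (key 1 (by norm_num)) (key (-1) (by norm_num))
    _ = _ := by
        rw [← ENNReal.ofReal_add (by norm_num) (by norm_num)]
        norm_num

lemma exists_range (k : ℕ) (c : E) {ρ : ℝ} (hρ : 0 < ρ) :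
    ∃ Ω : Set ((Fin k → E) × (Fin k → ℝ)), MeasurableSet Ω ∧
      lam E k Ω ≤ ENNReal.ofReal (5 ^ finrank ℝ E * (32 * ρ) ^ k) ∧
      ∀ X, ∀ s ∈ Metric.closedBall c ρ, gr X s ∈ Ω := by
  obtain ⟨T, hT, hT2, hcov⟩ := exists_net E
  set f : E → E × ℝ → ℝ≥0∞ := fun t z =>
    ENNReal.ofReal (Real.exp |⟪t, z.1⟫|) * ENNReal.ofReal (Real.exp (-(|z.2 - ⟪z.1, c⟫| / ρ)))
    with hf
  have mf : ∀ t, Measurable (f t) := fun t => by
    simp only [hf]
    fun_prop
  set ω : (Fin k → E) × (Fin k → ℝ) → ℝ≥0∞ := fun z => ∑ t ∈ T, ∏ a, f t (z.1 a, z.2 a) with hω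
  have m1 : ∀ t, Measurable fun z : (Fin k → E) × (Fin k → ℝ) => ∏ a, f t (z.1 a, z.2 a) :=
    fun t => Finset.measurable_prod _ fun a _ => (mf t).comp (by fun_prop)
  have mω : Measurable ω := Finset.measurable_sum _ fun t _ => m1 t
  refine ⟨{z | 1 ≤ ω z}, measurableSet_le measurable_const mω, ?_, fun X s hs => ?_⟩
  · have h1 := mul_meas_ge_le_lintegral (μ := lam E k) mω 1
    rw [one_mul] at h1
    refine h1.trans ?_
    simp only [hω]
    rw [lintegral_finsetSum _ fun t _ => m1 t]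
    have h2 : ∀ t ∈ T, ∫⁻ z, ∏ a, f t (z.1 a, z.2 a) ∂(lam E k) ≤ ENNReal.ofReal ((32 * ρ) ^ k) := by
      intro t ht
      rw [lintegral_lam_prod k _ (mf t), ENNReal.ofReal_pow (by positivity)]
      refine pow_le_pow_left' ?_ k
      rw [lintegral_prod _ (mf t).aemeasurable]
      simp only [hf]
      have e : ∀ x : E, ∫⁻ y : ℝ, ENNReal.ofReal (Real.exp |⟪t, x⟫|) *
          ENNReal.ofReal (Real.exp (-(|y - ⟪x, c⟫| / ρ))) =
          ENNReal.ofReal (Real.exp |⟪t, x⟫|) * ENNReal.ofReal (2 * ρ) := by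
        intro x
        rw [lintegral_const_mul _ (by fun_prop), lintegral_exp_abs hρ]
      simp only [e]
      rw [lintegral_mul_const _ (by fun_prop)]
      refine (mul_le_mul_left (gauss_exp_abs t (hT2 t ht)) _).trans (le_of_eq ?_)
      rw [← ENNReal.ofReal_mul (by norm_num)]
      congr 1
      ring
    refine (Finset.sum_le_card_nsmul _ _ _ h2).trans ?_
    rw [nsmul_eq_mul, ENNReal.ofReal_mul (by positivity)]
    refine mul_le_mul_left ?_ _
    rw [← ENNReal.ofReal_natCast]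
    exact ENNReal.ofReal_le_ofReal (by exact_mod_cast hT)
  · set N : E → ℝ := fun v => ∑ a, |⟪X a, v⟫| with hN
    have cN : Continuous N := by
      simp only [hN]
      fun_prop
    have Nsmul : ∀ (b : ℝ) v, 0 ≤ b → N (b • v) = b * N v := by
      intro b v hb
      simp only [hN, real_inner_smul_right, abs_mul, abs_of_nonneg hb, Finset.mul_sum]
    have Nadd : ∀ v w, N (v + w) ≤ N v + N w := by
      intro v w
      simp only [hN, inner_add_right, ← Finset.sum_add_distrib]
      exact Finset.sum_le_sum fun a _ => abs_add_le _ _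
    obtain ⟨v0, hv0, hmax⟩ := (isCompact_closedBall (0 : E) 2).exists_isMaxOn
      ⟨0, by simp⟩ cN.continuousOn
    obtain ⟨t, ht, h1⟩ := hcov v0 (mem_closedBall_zero_iff.mp hv0)
    have h2 : N ((2 : ℝ) • (v0 - t)) ≤ N v0 := hmax (by
      rw [mem_closedBall_zero_iff, norm_smul, Real.norm_two]
      linarith)
    rw [Nsmul _ _ (by norm_num)] at h2
    have h3 := Nadd (v0 - t) t
    rw [sub_add_cancel] at h3
    have h4 : N ((2 / ρ) • (s - c)) ≤ N v0 := hmax (by
      rw [mem_closedBall_zero_iff, norm_smul, Real.norm_of_nonneg (by positivity), div_mul_eq_mul_div,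
        div_le_iff₀ hρ]
      linarith [mem_closedBall_iff_norm.mp hs])
    rw [Nsmul _ _ (by positivity)] at h4
    have h5 : N (s - c) / ρ ≤ N t := by
      have : 2 / ρ * N (s - c) = 2 * (N (s - c) / ρ) := by ring
      linarith
    change 1 ≤ ω (gr X s)
    refine le_trans ?_ (Finset.single_le_sum (f := fun t => ∏ a, f t ((gr X s).1 a, (gr X s).2 a))
      (fun _ _ => zero_le) ht)
    simp only [hf, gr]
    have e : ∀ a, ENNReal.ofReal (Real.exp |⟪t, X a⟫|) *
        ENNReal.ofReal (Real.exp (-(|⟪X a, s⟫ - ⟪X a, c⟫| / ρ))) =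
        ENNReal.ofReal (Real.exp (|⟪X a, t⟫| - |⟪X a, s - c⟫| / ρ)) := by
      intro a
      rw [← ENNReal.ofReal_mul (Real.exp_pos _).le, ← Real.exp_add, inner_sub_right,
        real_inner_comm t, ← sub_eq_add_neg]
    simp only [e]
    rw [← ENNReal.ofReal_prod_of_nonneg fun a _ => (Real.exp_pos _).le, ← Real.exp_sum,
      ← ENNReal.ofReal_one]
    refine ENNReal.ofReal_le_ofReal (Real.one_le_exp ?_)
    rw [Finset.sum_sub_distrib, ← Finset.sum_div]
    simp only [hN] at h5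
    linarith

end Crest.Agent.R322
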