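import Mathlib

/-! Row 322: multilinear Gaussian estimate (a determinant formula for random slices). -/

set_option autoImplicit false

namespace Crest.Agent.R322

open MeasureTheory ProbabilityTheory Filter Topology
open scoped ENNReal RealInnerProductSpace

lemma lintegral_pi_succ {α : Type*} [MeasurableSpace α] (μ : Measure α) [SigmaFinite μ] (k : ℕ)
    (F : (Fin (k + 1) → α) → ℝ≥0∞) (hF : Measurable F) :
    ∫⁻ z, F z ∂(Measure.pi fun _ => μ) =
      ∫⁻ x, ∫⁻ z, F (Fin.cons x z) ∂(Measure.pi fun _ : Fin k => μ) ∂μ := by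
  have h := (measurePreserving_piFinSuccAbove (fun _ : Fin (k + 1) => μ) 0).symm
  have m : Measurable fun a => F ((MeasurableEquiv.piFinSuccAbove (fun _ : Fin (k + 1) => α) 0).symm a) :=
    hF.comp h.measurable
  rw [← h.lintegral_comp hF, lintegral_prod _ m.aemeasurable]
  refine lintegral_congr fun x => lintegral_congr fun z => ?_
  congr 1
  simp [MeasurableEquiv.piFinSuccAbove_symm_apply, Fin.insertNthEquiv]

lemma lintegral_pi_prod {α : Type*} [MeasurableSpace α] (μ : Measure α) [SigmaFinite μ] (k : ℕ)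
    (f : Fin k → α → ℝ≥0∞) (hf : ∀ i, Measurable (f i)) :
    ∫⁻ z, ∏ i, f i (z i) ∂(Measure.pi fun _ => μ) = ∏ i, ∫⁻ x, f i x ∂μ := by
  induction k with
  | zero => simp
  | succ k ih =>
    have m0 : Measurable fun z : Fin (k + 1) → α => ∏ i, f i (z i) :=
      Finset.measurable_prod _ fun i _ => (hf i).comp (measurable_pi_apply i)
    rw [lintegral_pi_succ μ k _ m0]
    simp only [Fin.prod_univ_succ, Fin.cons_zero, Fin.cons_succ]
    have m : Measurable fun z : Fin k → α => ∏ i, f (Fin.succ i) (z i) :=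
      Finset.measurable_prod _ fun i _ => (hf _).comp (measurable_pi_apply i)
    simp only [lintegral_const_mul _ m]
    rw [lintegral_mul_const _ (hf 0), ih _ fun i => hf _]

variable {E : Type} [NormedAddCommGroup E] [InnerProductSpace ℝ E] [FiniteDimensional ℝ E]
  [MeasurableSpace E] [BorelSpace E]

/-- the reference measure on (samples, measurements) -/
noncomputable def lam (E : Type) [NormedAddCommGroup E] [InnerProductSpace ℝ E]
    [FiniteDimensional ℝ E] [MeasurableSpace E] (k : ℕ) : Measure ((Fin k → E) × (Fin k → ℝ)) :=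
  (Measure.pi fun _ => stdGaussian E).prod (Measure.pi fun _ => volume)

instance (k : ℕ) : SFinite (lam E k) := by
  unfold lam
  infer_instance

lemma lintegral_lam_prod (k : ℕ) (f : E × ℝ → ℝ≥0∞) (hf : Measurable f) :
    ∫⁻ z, ∏ a, f (z.1 a, z.2 a) ∂(lam E k) = (∫⁻ x, f x ∂((stdGaussian E).prod volume)) ^ k := by
  have h := measurePreserving_arrowProdEquivProdArrow E ℝ (Fin k) (fun _ => stdGaussian E)
    (fun _ => volume)
  have m : Measurable fun z : (Fin k → E) × (Fin k → ℝ) => ∏ a, f (z.1 a, z.2 a) :=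
    Finset.measurable_prod _ fun a _ => hf.comp (by fun_prop)
  unfold lam
  rw [← h.lintegral_comp m]
  have := lintegral_pi_prod ((stdGaussian E).prod volume) k (fun _ => f) fun _ => hf
  simp only [Finset.prod_const, Finset.card_univ, Fintype.card_fin] at this
  rw [← this]
  rfl

lemma map_inner (u : E) :
    (stdGaussian E).map (fun x => ⟪u, x⟫) = gaussianReal 0 (‖u‖ ^ 2).toNNReal := by
  have := IsGaussian.map_eq_gaussianReal (μ := stdGaussian E) (innerSL ℝ u)
  rw [integral_strongDual_stdGaussian, variance_dual_stdGaussian, innerSL_apply_norm] at this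
  exact this

lemma gauss_le {σ : ℝ} (hσ : 0 < σ) {κ : ℝ → ℝ≥0∞} (mκ : Measurable κ) (hκ : ∫⁻ t, κ t ≤ 1)
    (c : ℝ) : ∫⁻ t, κ (c - t) ∂(gaussianReal 0 (σ ^ 2).toNNReal) ≤ (ENNReal.ofReal σ)⁻¹ := by
  have hv : (σ ^ 2).toNNReal ≠ 0 := by
    simp only [ne_eq, Real.toNNReal_eq_zero, not_le]
    positivity
  rw [gaussianReal_of_var_ne_zero _ hv, lintegral_withDensity_eq_lintegral_mul _
    (measurable_gaussianPDF _ _) (by fun_prop)]
  have h1 : ∀ t, gaussianPDF 0 (σ ^ 2).toNNReal t ≤ (ENNReal.ofReal σ)⁻¹ := by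
    intro t
    rw [gaussianPDF, ← ENNReal.ofReal_inv_of_pos hσ]
    refine ENNReal.ofReal_le_ofReal ?_
    rw [gaussianPDFReal, Real.coe_toNNReal _ (sq_nonneg σ)]
    have h2 : σ ≤ √(2 * Real.pi * σ ^ 2) := by
      refine Real.le_sqrt_of_sq_le ?_
      nlinarith [Real.pi_gt_three, sq_nonneg σ]
    have h3 : Real.exp (-(t - 0) ^ 2 / (2 * σ ^ 2)) ≤ 1 := by
      rw [Real.exp_le_one_iff]
      exact div_nonpos_of_nonpos_of_nonneg (by nlinarith [sq_nonneg (t - 0)]) (by positivity)
    calc (√(2 * Real.pi * σ ^ 2))⁻¹ * Real.exp (-(t - 0) ^ 2 / (2 * σ ^ 2))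
        ≤ σ⁻¹ * 1 := mul_le_mul (inv_anti₀ hσ h2) h3 (Real.exp_pos _).le (by positivity)
      _ = σ⁻¹ := mul_one _
  calc ∫⁻ t, (gaussianPDF 0 (σ ^ 2).toNNReal * fun t => κ (c - t)) t
      ≤ ∫⁻ t, (ENNReal.ofReal σ)⁻¹ * κ (c - t) :=
        lintegral_mono fun t => mul_le_mul_left (h1 t) _
    _ = (ENNReal.ofReal σ)⁻¹ * ∫⁻ t, κ t := by
        rw [lintegral_const_mul _ (by fun_prop), lintegral_sub_left_eq_self]
    _ ≤ (ENNReal.ofReal σ)⁻¹ * 1 := mul_le_mul_right hκ _
    _ = _ := mul_one _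

/-- the span of a list -/
def sp (l : List E) : Submodule ℝ E := Submodule.span ℝ {x | x ∈ l}

/-- the distance to the span of a list -/
noncomputable def dd (l : List E) (w : E) : ℝ := ‖w - (sp l).starProjection w‖

/-- the inverse volume spanned by a list -/
noncomputable def bet : List E → ℝ≥0∞
  | [] => 1
  | w :: l => bet l * (ENNReal.ofReal (dd l w))⁻¹

omit [MeasurableSpace E] [BorelSpace E] in
lemma bet_ne (l : List E) : bet l ≠ 0 := by
  induction l with
  | nil => simp [bet]
  | cons w l ih => simp [bet, ih]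

lemma measurable_listProd {α β : Type*} [MeasurableSpace α] (l : List β) (f : β → α → ℝ≥0∞)
    (hf : ∀ w, Measurable (f w)) : Measurable fun x => (l.map fun w => f w x).prod := by
  induction l with
  | nil => simp
  | cons w l ih =>
    simp only [List.map_cons, List.prod_cons]
    exact (hf w).mul ih

lemma indep_orth (u : E) :
    IndepFun (fun x : E => x - (⟪u, x⟫ / ‖u‖ ^ 2) • u) (fun x : E => ⟪u, x⟫) (stdGaussian E) := by
  rcases eq_or_ne u 0 with rfl | hu
  · simpa using indepFun_const_right _ _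
  have hn : ‖u‖ ^ 2 ≠ 0 := by simpa using hu
  set L : E →L[ℝ] E × ℝ := (ContinuousLinearMap.id ℝ E -
    ((‖u‖ ^ 2)⁻¹ • innerSL ℝ u).smulRight u).prod (innerSL ℝ u) with hL
  have h1 : HasGaussianLaw (fun x : E => (x - (⟪u, x⟫ / ‖u‖ ^ 2) • u, ⟪u, x⟫)) (stdGaussian E) := by
    have := (IsGaussian.hasGaussianLaw_id (μ := stdGaussian E)).map_fun L
    have e : (fun x : E => (x - (⟪u, x⟫ / ‖u‖ ^ 2) • u, ⟪u, x⟫)) = fun x => L (id x) := by
      funext x
      simp [hL, div_eq_inv_mul]
    rw [e]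
    exact this
  refine h1.indepFun_of_covariance_inner fun a b => ?_
  have e1 : (fun x : E => ⟪a, x - (⟪u, x⟫ / ‖u‖ ^ 2) • u⟫) =
      fun x => ⟪a - (⟪a, u⟫ / ‖u‖ ^ 2) • u, x⟫ := by
    funext x
    simp only [inner_sub_right, inner_sub_left, real_inner_smul_right, real_inner_smul_left]
    ring
  have e2 : (fun x : E => ⟪b, ⟪u, x⟫⟫) = fun x => ⟪b • u, x⟫ := by
    funext x
    simp only [real_inner_smul_left, RCLike.inner_apply, conj_trivial]
    ring
  rw [e1, e2, ← covarianceBilin_apply_eq_cov IsGaussian.memLp_two_id, covarianceBilin_stdGaussian,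
    innerSL_apply_apply]
  simp only [inner_sub_left, real_inner_smul_right, real_inner_smul_left,
    real_inner_self_eq_norm_sq]
  field_simp
  ring

lemma gauss_list {κ : ℝ → ℝ≥0∞} (mκ : Measurable κ) (hκ : ∫⁻ t, κ t ≤ 1) (v : ℝ) (l : List E) :
    ∫⁻ x, (l.map fun w => κ (v - ⟪w, x⟫)).prod ∂(stdGaussian E) ≤ bet l := by
  induction l with
  | nil => simp [bet]
  | cons w l ih =>
    set u := w - (sp l).starProjection w with hu
    rcases eq_or_ne u 0 with h0 | h0
    · have : dd l w = 0 := by rw [dd, ← hu, h0, norm_zero]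
      simp [bet, this, bet_ne]
    have hpos : 0 < ‖u‖ := norm_pos_iff.mpr h0
    have horth : ∀ w' ∈ sp l, ⟪w', u⟫ = 0 := fun w' hw' =>
      Submodule.inner_right_of_mem_orthogonal hw' ((sp l).sub_starProjection_mem_orthogonal w)
    set X : E → E := fun x => x - (⟪u, x⟫ / ‖u‖ ^ 2) • u with hX
    set Y : E → ℝ := fun x => ⟪u, x⟫ with hY
    have mX : Measurable X := by rw [hX]; fun_prop
    have mY : Measurable Y := by rw [hY]; fun_prop
    have hXw : ∀ w' ∈ sp l, ∀ x, ⟪w', X x⟫ = ⟪w', x⟫ := by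
      intro w' hw' x
      simp only [hX, inner_sub_right, real_inner_smul_right, horth w' hw', mul_zero, sub_zero]
    set G : E → ℝ≥0∞ := fun x => (l.map fun w => κ (v - ⟪w, x⟫)).prod with hG
    have mG : Measurable G := measurable_listProd l _ fun w => by fun_prop
    have hGX : ∀ x, G (X x) = G x := by
      intro x
      simp only [hG]
      congr 1
      refine List.map_congr_left fun w' hw' => ?_
      rw [hXw w' (Submodule.subset_span hw')]
    set F : E × ℝ → ℝ≥0∞ := fun p => G p.1 * κ (v - ⟪(sp l).starProjection w, p.1⟫ - p.2) with hF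
    have mF : Measurable F := by
      rw [hF]
      exact (mG.comp measurable_fst).mul (by fun_prop)
    have e1 : ∀ x, ((w :: l).map fun w => κ (v - ⟪w, x⟫)).prod = F (X x, Y x) := by
      intro x
      simp only [List.map_cons, List.prod_cons, hF, hGX]
      rw [hXw _ ((sp l).starProjection_apply_mem w), mul_comm]
      congr 2
      simp only [hY, hu, inner_sub_left]
      ring
    simp only [e1]
    have hind := (indepFun_iff_map_prod_eq_prod_map_map mX.aemeasurable mY.aemeasurable).mp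
      (indep_orth u)
    rw [← lintegral_map mF (mX.prodMk mY), hind, lintegral_prod _ mF.aemeasurable, hY, map_inner]
    calc ∫⁻ x, ∫⁻ t, F (x, t) ∂(gaussianReal 0 (‖u‖ ^ 2).toNNReal) ∂((stdGaussian E).map X)
        ≤ ∫⁻ x, G x * (ENNReal.ofReal ‖u‖)⁻¹ ∂((stdGaussian E).map X) := by
          refine lintegral_mono fun x => ?_
          simp only [hF]
          rw [lintegral_const_mul _ (by fun_prop)]
          exact mul_le_mul_right (gauss_le hpos mκ hκ _) _
      _ = (∫⁻ x, G x ∂(stdGaussian E)) * (ENNReal.ofReal ‖u‖)⁻¹ := by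
          rw [lintegral_mul_const _ mG, lintegral_map mG mX]
          simp only [hGX]
      _ ≤ bet l * (ENNReal.ofReal ‖u‖)⁻¹ := mul_le_mul_left ih _
      _ = bet (w :: l) := rfl

lemma gauss_row {κ : ℝ → ℝ≥0∞} (mκ : Measurable κ) (hκ : ∫⁻ t, κ t ≤ 1) (a : E) (l : List E) :
    ∫⁻ z : E × ℝ, κ (z.2 - ⟪z.1, a⟫) * (l.map fun w => κ (z.2 - ⟪z.1, a + w⟫)).prod
      ∂((stdGaussian E).prod volume) ≤ bet l := by
  have m1 : Measurable fun z : E × ℝ =>
      κ (z.2 - ⟪z.1, a⟫) * (l.map fun w => κ (z.2 - ⟪z.1, a + w⟫)).prod :=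
    Measurable.mul (by fun_prop) (measurable_listProd l _ fun w => by fun_prop)
  have m2 : Measurable fun z : E × ℝ => κ z.2 * (l.map fun w => κ (z.2 - ⟪w, z.1⟫)).prod :=
    Measurable.mul (by fun_prop) (measurable_listProd l _ fun w => by fun_prop)
  rw [lintegral_prod _ m1.aemeasurable]
  have e : ∀ x : E, ∫⁻ y, κ (y - ⟪x, a⟫) * (l.map fun w => κ (y - ⟪x, a + w⟫)).prod =
      ∫⁻ v, κ v * (l.map fun w => κ (v - ⟪w, x⟫)).prod := by
    intro x
    rw [← lintegral_add_right_eq_self _ ⟪x, a⟫]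
    refine lintegral_congr fun v => ?_
    simp only [add_sub_cancel_right, inner_add_right, real_inner_comm]
    congr 2
    refine List.map_congr_left fun w _ => ?_
    congr 1
    ring
  simp only [e]
  rw [lintegral_lintegral_swap m2.aemeasurable]
  calc ∫⁻ v, ∫⁻ x, κ v * (l.map fun w => κ (v - ⟪w, x⟫)).prod ∂(stdGaussian E)
      ≤ ∫⁻ v, κ v * bet l := by
        refine lintegral_mono fun v => ?_
        rw [lintegral_const_mul _ (measurable_listProd l _ fun w => by fun_prop)]
        exact mul_le_mul_right (gauss_list mκ hκ v l) _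
    _ = (∫⁻ v, κ v) * bet l := lintegral_mul_const _ mκ
    _ ≤ 1 * bet l := mul_le_mul_left hκ _
    _ = _ := one_mul _

end Crest.Agent.R322
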