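import Crest.Prelude.Def_StreamLearn

/-! Row 322: facts on the uniform law on the sphere. -/

set_option autoImplicit false

namespace Crest.Agent.R322

open MeasureTheory ProbabilityTheory Filter Topology Module Crest.StreamLearn
open scoped ENNReal RealInnerProductSpace Pointwise

/-- the uniform law on the sphere as a measure on the space -/
noncomputable def UU (d : ℕ) : Measure (E d) := (sphereUniform d).map Subtype.val

lemma vol_ball_ne (d : ℕ) : (volume : Measure (E d)) (Metric.ball 0 1) ≠ 0 ∧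
    (volume : Measure (E d)) (Metric.ball 0 1) ≠ ⊤ :=
  ⟨(Metric.measure_ball_pos _ _ one_pos).ne', measure_ball_lt_top.ne⟩

lemma sphere_prob {d : ℕ} (hd : 0 < d) : IsProbabilityMeasure (sphereUniform d) := by
  constructor
  rw [sphereUniform, Measure.smul_apply, smul_eq_mul]
  refine ENNReal.inv_mul_cancel ?_ (measure_ne_top _ _)
  rw [Measure.toSphere_apply_univ, finrank_euclideanSpace_fin]
  exact mul_ne_zero (by simpa using hd.ne') (vol_ball_ne d).1

lemma UU_prob {d : ℕ} (hd : 0 < d) : IsProbabilityMeasure (UU d) := by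
  have := sphere_prob hd
  exact Measure.isProbabilityMeasure_map measurable_subtype_coe.aemeasurable

lemma UU_apply {d : ℕ} (hd : 0 < d) {A : Set (E d)} (hA : MeasurableSet A) :
    UU d A = (volume (Metric.ball (0 : E d) 1))⁻¹ *
      volume (Set.Ioo (0 : ℝ) 1 • (Metric.sphere (0 : E d) 1 ∩ A)) := by
  have hd' : (d : ℝ≥0∞) ≠ 0 := by simpa using hd.ne'
  rw [UU, Measure.map_apply measurable_subtype_coe hA, sphereUniform, Measure.smul_apply,
    smul_eq_mul, Measure.toSphere_apply_univ, Measure.toSphere_apply' _ (measurable_subtype_coe hA),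
    finrank_euclideanSpace_fin, Subtype.image_preimage_coe,
    ENNReal.mul_inv (Or.inl hd') (Or.inl (by simp)), mul_mul_mul_comm,
    ENNReal.inv_mul_cancel hd' (by simp), one_mul]

lemma UU_ae (d : ℕ) : ∀ᵐ s ∂(UU d), ‖s‖ = 1 := by
  rw [UU, ae_map_iff measurable_subtype_coe.aemeasurable
    (measurableSet_eq_fun measurable_norm measurable_const)]
  exact Eventually.of_forall fun s => by simp

lemma UU_map {d : ℕ} (hd : 0 < d) (f : E d ≃ₗᵢ[ℝ] E d) : MeasurePreserving f (UU d) (UU d) := by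
  have mf : Measurable f := f.continuous.measurable
  refine ⟨mf, Measure.ext fun A hA => ?_⟩
  rw [Measure.map_apply mf hA, UU_apply hd hA, UU_apply hd (mf hA)]
  congr 1
  rw [← f.measurePreserving.measure_preimage_emb f.toHomeomorph.measurableEmbedding
    (Set.Ioo (0 : ℝ) 1 • (Metric.sphere (0 : E d) 1 ∩ A))]
  congr 1
  ext x
  simp only [Set.mem_preimage, Set.mem_smul, Set.mem_inter_iff, mem_sphere_zero_iff_norm]
  constructor
  · rintro ⟨t, ht, y, ⟨h1, h2⟩, rfl⟩
    exact ⟨t, ht, f y, ⟨by rw [f.norm_map, h1], h2⟩, by rw [map_smul]⟩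
  · rintro ⟨t, ht, y, ⟨h1, h2⟩, h3⟩
    refine ⟨t, ht, f.symm y, ⟨by rw [f.symm.norm_map, h1], by simpa using h2⟩, ?_⟩
    rw [← map_smul, h3, f.symm_apply_apply]

lemma UU_ball {d : ℕ} (hd : 0 < d) (c : E d) {r : ℝ} (hr : 0 < r) (hr1 : r ≤ 1) :
    UU d (Metric.closedBall c r) ≤ ENNReal.ofReal (2 * 3 ^ d * r ^ (d - 1)) := by
  rw [UU_apply hd Metric.isClosed_closedBall.measurableSet]
  rcases (Metric.sphere (0 : E d) 1 ∩ Metric.closedBall c r).eq_empty_or_nonempty with h | h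
  · simp [h]
  obtain ⟨s0, hs0, hs0'⟩ := h
  rw [mem_sphere_zero_iff_norm] at hs0
  have hsub : Set.Ioo (0 : ℝ) 1 • (Metric.sphere (0 : E d) 1 ∩ Metric.closedBall c r) ⊆
      ⋃ i ∈ Finset.range (⌊1 / r⌋₊ + 1), Metric.closedBall (((i : ℝ) * r) • s0) (3 * r) := by
    rintro x ⟨t, ht, y, ⟨-, h2⟩, rfl⟩
    have h3 := Nat.floor_le (div_pos ht.1 hr).le
    have h4 := Nat.lt_floor_add_one (t / r)
    rw [le_div_iff₀ hr] at h3
    rw [div_lt_iff₀ hr] at h4
    refine Set.mem_biUnion (x := ⌊t / r⌋₊) ?_ ?_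
    · rw [Finset.mem_coe, Finset.mem_range, Nat.lt_succ_iff]
      exact Nat.floor_le_floor (div_le_div_of_nonneg_right ht.2.le hr.le)
    · rw [mem_closedBall_iff_norm]
      have h5 : ‖y - s0‖ ≤ 2 * r := by
        have := dist_triangle_right y s0 c
        rw [dist_eq_norm] at this
        linarith [Metric.mem_closedBall.mp h2, Metric.mem_closedBall.mp hs0']
      have e : t • y - ((⌊t / r⌋₊ : ℝ) * r) • s0 = t • (y - s0) + (t - (⌊t / r⌋₊ : ℝ) * r) • s0 := by
        rw [smul_sub, sub_smul]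
        abel
      simp only
      rw [e]
      refine (norm_add_le _ _).trans ?_
      rw [norm_smul, norm_smul, hs0, Real.norm_of_nonneg ht.1.le,
        Real.norm_of_nonneg (by linarith)]
      nlinarith [norm_nonneg (y - s0), ht.2]
  have h1 := (measure_mono (μ := (volume : Measure (E d))) hsub).trans
    (measure_biUnion_finset_le _ _)
  simp only [Measure.addHaar_closedBall _ _ (show 0 ≤ 3 * r by positivity),
    finrank_euclideanSpace_fin, Finset.sum_const, Finset.card_range, nsmul_eq_mul] at h1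
  refine (mul_le_mul_right h1 _).trans ?_
  rw [mul_comm, mul_assoc, mul_assoc, ENNReal.mul_inv_cancel (vol_ball_ne d).1 (vol_ball_ne d).2,
    mul_one, ← ENNReal.ofReal_natCast, ← ENNReal.ofReal_mul (Nat.cast_nonneg _)]
  refine ENNReal.ofReal_le_ofReal ?_
  have h2 : ((⌊1 / r⌋₊ + 1 : ℕ) : ℝ) * r ≤ 2 := by
    have := Nat.floor_le (show 0 ≤ 1 / r by positivity)
    rw [le_div_iff₀ hr] at this
    push_cast
    linarith
  obtain ⟨d, rfl⟩ := Nat.exists_eq_succ_of_ne_zero hd.ne'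
  rw [Nat.succ_sub_one, mul_pow, pow_succ r]
  calc ((⌊1 / r⌋₊ + 1 : ℕ) : ℝ) * (3 ^ d.succ * (r ^ d * r))
      = ((⌊1 / r⌋₊ + 1 : ℕ) : ℝ) * r * (3 ^ d.succ * r ^ d) := by ring
    _ ≤ 2 * (3 ^ d.succ * r ^ d) := mul_le_mul_of_nonneg_right h2 (by positivity)
    _ = _ := by ring

lemma UU_sq {d : ℕ} (hd : 0 < d) (e : E d) (he : ‖e‖ = 1) :
    ∫⁻ s, ENNReal.ofReal (⟪e, s⟫ ^ 2) ∂(UU d) = (d : ℝ≥0∞)⁻¹ := by
  have := UU_prob hd
  have h1 : ∀ e' : E d, ‖e'‖ = 1 → ∫⁻ s, ENNReal.ofReal (⟪e', s⟫ ^ 2) ∂(UU d) =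
      ∫⁻ s, ENNReal.ofReal (⟪e, s⟫ ^ 2) ∂(UU d) := by
    intro e' he'
    set f := Submodule.reflection (ℝ ∙ (e - e'))ᗮ with hf
    have h2 : f e = e' := Submodule.reflection_sub (he.trans he'.symm)
    rw [← (UU_map hd f).lintegral_comp (by fun_prop)]
    simp only [← h2, LinearIsometryEquiv.inner_map_map]
  set b := EuclideanSpace.basisFun (Fin d) ℝ
  have h3 : ∑ i, ∫⁻ s, ENNReal.ofReal (⟪b i, s⟫ ^ 2) ∂(UU d) = 1 := by
    rw [← lintegral_finsetSum _ fun i _ => by fun_prop]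
    rw [lintegral_congr_ae (g := fun _ => 1)]
    · simp
    · filter_upwards [UU_ae d] with s hs
      rw [← ENNReal.ofReal_sum_of_nonneg fun i _ => sq_nonneg _, b.sum_sq_inner_right, hs]
      simp
  simp only [h1 _ (b.orthonormal.1 _), Finset.sum_const, Finset.card_univ, Fintype.card_fin,
    nsmul_eq_mul] at h3
  exact (ENNReal.eq_inv_of_mul_eq_one_left (by rw [mul_comm]; exact h3))

lemma UU_proj {d : ℕ} (hd : 0 < d) (V : Submodule ℝ (E d)) :
    ∫⁻ s, ENNReal.ofReal (‖V.starProjection s‖ ^ 2) ∂(UU d) = finrank ℝ V * (d : ℝ≥0∞)⁻¹ := by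
  set b := stdOrthonormalBasis ℝ V
  have e : ∀ s : E d, ENNReal.ofReal (‖V.starProjection s‖ ^ 2) =
      ∑ i, ENNReal.ofReal (⟪(b i : E d), s⟫ ^ 2) := by
    intro s
    rw [← ENNReal.ofReal_sum_of_nonneg fun i _ => sq_nonneg _]
    congr 1
    have := b.sum_sq_inner_right (V.orthogonalProjectionOnto s)
    simp only [Submodule.inner_orthogonalProjectionOnto_eq_of_mem_left] at this
    rw [this]
    rfl
  simp only [e]
  rw [lintegral_finsetSum _ fun i _ => by fun_prop]
  have h1 : ∀ i, ∫⁻ s, ENNReal.ofReal (⟪(b i : E d), s⟫ ^ 2) ∂(UU d) = (d : ℝ≥0∞)⁻¹ :=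
    fun i => UU_sq hd _ (b.orthonormal.1 i)
  simp [h1]

lemma few_samples {d T : ℕ} (hd : 0 < d) (hT : 4 * T ≤ d) (X : Fin T → E d)
    (g : (Fin T → E d × ℝ) → E d) {ε : ℝ} (hε : ε ≤ 1 / 10)
    (hA : MeasurableSet {s : E d | s ∈ Metric.closedBall (g fun a => (X a, ⟪X a, s⟫)) ε}) :
    UU d {s | s ∈ Metric.closedBall (g fun a => (X a, ⟪X a, s⟫)) ε} ≤ ENNReal.ofReal (63 / 100) := by
  have := UU_prob hd
  set A := {s : E d | s ∈ Metric.closedBall (g fun a => (X a, ⟪X a, s⟫)) ε} with hAdef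
  set V := Submodule.span ℝ (Set.range X) with hV
  have hVT : finrank ℝ V ≤ T := (finrank_range_le_card (R := ℝ) X).trans_eq (Fintype.card_fin T)
  set f := V.reflection with hf
  have hX : ∀ a s, ⟪X a, f s⟫ = ⟪X a, s⟫ := by
    intro a s
    have : f (X a) = X a :=
      Submodule.reflection_mem_subspace_eq_self (Submodule.subset_span ⟨a, rfl⟩)
    conv_lhs => rw [← this]
    exact f.inner_map_map _ _
  have mf := (UU_map hd f).measurable
  have h1 : UU d (f ⁻¹' A) = UU d A := (UU_map hd f).measure_preimage hA.nullMeasurableSet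
  have h2 : UU d (A ∩ f ⁻¹' A) ≤
      UU d {s | ENNReal.ofReal (99 / 100) ≤ ENNReal.ofReal (‖V.starProjection s‖ ^ 2)} := by
    refine measure_mono_ae ?_
    filter_upwards [UU_ae d] with s hs h
    obtain ⟨h3, h4⟩ := h
    simp only [hAdef, Set.mem_preimage, Set.mem_ofPred_eq, hX, Metric.mem_closedBall] at h3 h4
    have h5 := dist_triangle_right s (f s) (g fun a => (X a, ⟪X a, s⟫))
    have e : s - f s = (2 : ℝ) • (s - V.starProjection s) := by
      rw [hf, Submodule.reflection_apply, two_smul, two_smul]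
      abel
    rw [dist_eq_norm, e, norm_smul, Real.norm_two] at h5
    have h6 := V.norm_sq_eq_add_norm_sq_starProjection s
    rw [Submodule.starProjection_orthogonal_val, hs] at h6
    refine ENNReal.ofReal_le_ofReal ?_
    nlinarith [norm_nonneg (s - V.starProjection s)]
  have h3 := mul_meas_ge_le_lintegral (μ := UU d)
    (f := fun s => ENNReal.ofReal (‖V.starProjection s‖ ^ 2)) (by fun_prop)
    (ENNReal.ofReal (99 / 100))
  rw [UU_proj hd] at h3
  have h4 : (finrank ℝ V : ℝ≥0∞) * (d : ℝ≥0∞)⁻¹ ≤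
      ENNReal.ofReal (99 / 100) * ENNReal.ofReal (26 / 100) := by
    have hd' : (0 : ℝ) < d := by exact_mod_cast hd
    rw [← ENNReal.ofReal_natCast, ← ENNReal.ofReal_natCast, ← ENNReal.ofReal_inv_of_pos hd',
      ← ENNReal.ofReal_mul (Nat.cast_nonneg _), ← ENNReal.ofReal_mul (by norm_num)]
    refine ENNReal.ofReal_le_ofReal ?_
    rw [← div_eq_mul_inv, div_le_iff₀ hd']
    have : (4 : ℝ) * finrank ℝ V ≤ d := by exact_mod_cast (by omega : 4 * finrank ℝ V ≤ d)
    linarith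
  have h5 := h2.trans ((ENNReal.mul_le_mul_iff_right (by simp) ENNReal.ofReal_ne_top).mp
    (h3.trans h4))
  have h6 := measure_union_add_inter (μ := UU d) A (mf hA)
  rw [h1] at h6
  have h7 : UU d A + UU d A ≤ ENNReal.ofReal (63 / 100) + ENNReal.ofReal (63 / 100) := by
    rw [← h6]
    refine (add_le_add prob_le_one h5).trans (le_of_eq ?_)
    rw [← ENNReal.ofReal_one, ← ENNReal.ofReal_add (by norm_num) (by norm_num),
      ← ENNReal.ofReal_add (by norm_num) (by norm_num)]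
    norm_num
  by_contra hc
  push Not at hc
  exact absurd h7 (not_le.mpr (ENNReal.add_lt_add hc hc))

end Crest.Agent.R322
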