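import Crest.Agent.R322.Block
import Crest.Agent.R322.Sphere

/-! Row 322: reduction of the learner to a machine and the final count. -/

set_option autoImplicit false

namespace Crest.Agent.R322

open MeasureTheory ProbabilityTheory Filter Topology Module Crest.StreamLearn
open scoped ENNReal RealInnerProductSpace

variable {d T M : ℕ}

/-- one step of a learner with a fixed seed -/
noncomputable def stpL (L : RLearner d T M) (ω : L.Ω) (t : ℕ) (st : L.St × Option ℕ)
    (z : E d × ℝ) : L.St × Option ℕ :=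
  if h : t < T then
    (if st.2.isSome then st else
      if (L.trans ⟨t, h⟩ ω st.1 z.1 z.2).2 then ((L.trans ⟨t, h⟩ ω st.1 z.1 z.2).1, some (t + 1))
      else ((L.trans ⟨t, h⟩ ω st.1 z.1 z.2).1, none))
  else st

/-- the initial state -/
def iniL (L : RLearner d T M) (ω : L.Ω) : L.St × Option ℕ :=
  (L.init ω, if L.stopFirst ω then some 0 else none)

/-- the output attached to a state -/
def outL (L : RLearner d T M) (ω : L.Ω) (st : L.St × Option ℕ) : E d :=
  L.out (st.2.getD T) ω st.1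

lemma run_eq (L : RLearner d T M) (ω : L.Ω) (s : E d) (xs : Fin T → E d) :
    L.run ω s xs = run (stpL L ω) T 0 (iniL L ω) fun a => (xs a, ⟪xs a, s⟫) := by
  rw [← foldl_eq_run, RLearner.run]
  congr 1
  funext st i
  simp only [stpL, zero_add, i.isLt, dif_pos, Fin.eta]

lemma run_snd (L : RLearner d T M) (ω : L.Ω) (k : ℕ) : ∀ t σ z,
    (run (stpL L ω) k t σ z).2 = σ.2 ∨ (run (stpL L ω) k t σ z).2 = none ∨
      ∃ i, t < i ∧ i ≤ t + k ∧ (run (stpL L ω) k t σ z).2 = some i := by
  induction k with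
  | zero => intro t σ z; exact Or.inl rfl
  | succ k ih =>
    intro t σ z
    rw [run]
    rcases ih (t + 1) (stpL L ω t σ (z 0)) (Fin.tail z) with h | h | ⟨i, h1, h2, h3⟩
    · rw [h, stpL]
      split_ifs
      · exact Or.inl rfl
      · exact Or.inr (Or.inr ⟨t + 1, by omega, by omega, rfl⟩)
      · exact Or.inr (Or.inl rfl)
      · exact Or.inl rfl
    · exact Or.inr (Or.inl h)
    · exact Or.inr (Or.inr ⟨i, by omega, by omega, h3⟩)

lemma run_mem (L : RLearner d T M) (ω : L.Ω) (k t : ℕ) (σ : L.St × Option ℕ) :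
    ∃ Θ : Finset (L.St × Option ℕ), Θ.card ≤ 2 ^ M * (k + 2) ∧ ∀ z, run (stpL L ω) k t σ z ∈ Θ := by
  classical
  let := L.fin
  refine ⟨Finset.univ ×ˢ insert σ.2 (insert none ((Finset.Ioc t (t + k)).image some)), ?_,
    fun z => ?_⟩
  · rw [Finset.card_product, Finset.card_univ]
    refine Nat.mul_le_mul L.card_le ?_
    refine (Finset.card_insert_le _ _).trans (Nat.succ_le_succ ?_)
    refine (Finset.card_insert_le _ _).trans (Nat.succ_le_succ ?_)
    refine Finset.card_image_le.trans ?_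
    simp
  · simp only [Finset.mem_product, Finset.mem_univ, true_and, Finset.mem_insert, Finset.mem_image,
      Finset.mem_Ioc]
    rcases run_snd L ω k t σ z with h | h | ⟨i, h1, h2, h3⟩
    · exact Or.inl h
    · exact Or.inr (Or.inl h)
    · exact Or.inr (Or.inr ⟨i, ⟨h1, h2⟩, h3.symm⟩)

lemma norm_sub_le_of_arccos {a b : E d} (ha : ‖a‖ = 1) (hb : ‖b‖ = 1) {ε : ℝ}
    (h : Real.arccos ⟪a, b⟫ ≤ ε) : b ∈ Metric.closedBall a ε := by
  have h1 : |⟪a, b⟫| ≤ 1 := by simpa [ha, hb] using abs_real_inner_le_norm a b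
  have h2 := Real.cos_arccos (abs_le.mp h1).1 (abs_le.mp h1).2
  have h3 := Real.one_sub_sq_div_two_le_cos (x := Real.arccos ⟪a, b⟫)
  have h4 := Real.arccos_nonneg ⟪a, b⟫
  rw [Metric.mem_closedBall, dist_comm, dist_eq_norm]
  refine le_of_sq_le_sq ?_ (h4.trans h)
  rw [norm_sub_sq_real, ha, hb]
  nlinarith

lemma ind_congr {α β : Type*} {s : Set α} {t : Set β} {x : α} {y : β} (h : x ∈ s ↔ y ∈ t) :
    s.indicator (1 : α → ℝ≥0∞) x = t.indicator 1 y := by
  by_cases hx : x ∈ s
  · rw [Set.indicator_of_mem hx, Set.indicator_of_mem (h.mp hx), Pi.one_apply, Pi.one_apply]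
  · rw [Set.indicator_of_notMem hx, Set.indicator_of_notMem (mt h.mpr hx)]

theorem succ_le (hd : 0 < d) (L : RLearner d T M) (ε : ℝ) (b : ℝ) (hb : 0 ≤ b)
    (h : ∀ (ω : L.Ω) [MeasurableSpace (L.St × Option ℕ)]
      [MeasurableSingletonClass (L.St × Option ℕ)] [Countable (L.St × Option ℕ)],
      (∀ t σ, Measurable (stpL L ω t σ)) →
      ∫⁻ s, val (stpL L ω) T 0 (fun σ => (Metric.closedBall (outL L ω σ) ε).indicator 1)
        (iniL L ω) s ∂(UU d) ≤ ENNReal.ofReal b) :
    L.successProb ε ≤ b := by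
  let := L.mΩ
  let := L.fin
  have := L.prob
  have := sphere_prob hd
  let : MeasurableSpace L.St := ⊤
  let : MeasurableSpace (Option ℕ) := ⊤
  have : MeasurableSingletonClass L.St := ⟨fun _ => trivial⟩
  have : MeasurableSingletonClass (Option ℕ) := ⟨fun _ => trivial⟩
  have mstp : ∀ t σ, Measurable fun p : L.Ω × (E d × ℝ) => stpL L p.1 t σ p.2 := by
    intro t σ
    unfold stpL
    split_ifs with h1 h2
    · exact measurable_const
    · have m1 := (L.trans_measurable ⟨t, h1⟩ σ.1).1.prodMk (L.trans_measurable ⟨t, h1⟩ σ.1).2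
      exact (measurable_of_countable fun q : L.St × Bool =>
        if q.2 then ((q.1, some (t + 1)) : L.St × Option ℕ) else (q.1, none)).comp m1
    · exact measurable_const
  have mini : Measurable (iniL L) :=
    L.init_measurable.prodMk ((measurable_of_countable fun q : Bool =>
      if q then (some 0 : Option ℕ) else none).comp L.stopFirst_measurable)
  have mout : Measurable fun p : L.Ω × (L.St × Option ℕ) => outL L p.1 p.2 :=
    measurable_from_prod_countable_left fun σ => L.out_measurable (σ.2.getD T) σ.1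
  set γT := (Measure.pi fun _ : Fin T => stdGaussian (E d)) with hγ
  set o : Sphere d × (L.Ω × (Fin T → E d)) → E d := fun p => outL L p.2.1
    (run (stpL L p.2.1) T 0 (iniL L p.2.1) fun a => (p.2.2 a, ⟪p.2.2 a, (p.1 : E d)⟫)) with ho
  have mo : Measurable o := by
    have m1 : Measurable fun p : Sphere d × (L.Ω × (Fin T → E d)) =>
        run (stpL L p.2.1) T 0 (iniL L p.2.1) fun a => (p.2.2 a, ⟪p.2.2 a, (p.1 : E d)⟫) :=
      measurable_run (Y := Sphere d × (L.Ω × (Fin T → E d))) (fun p => stpL L p.2.1)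
        (fun t σ => (mstp t σ).comp
          (f := fun q : (Sphere d × (L.Ω × (Fin T → E d))) × (E d × ℝ) => (q.1.2.1, q.2))
          (by fun_prop)) T 0 _ _ (mini.comp (by fun_prop)) (by fun_prop)
    exact mout.comp ((measurable_fst.comp measurable_snd).prodMk m1)
  set A : Set (Sphere d × (L.Ω × (Fin T → E d))) := {p | dist (p.1 : E d) (o p) ≤ ε} with hA
  have mA : MeasurableSet A :=
    measurableSet_le ((measurable_subtype_coe.comp measurable_fst).dist mo) measurable_const
  have mI : Measurable (A.indicator (1 : Sphere d × (L.Ω × (Fin T → E d)) → ℝ≥0∞)) :=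
    measurable_one.indicator mA
  have key : ((sphereUniform d).prod (L.ρ.prod γT)) A ≤ ENNReal.ofReal b := by
    rw [← lintegral_indicator_one mA, lintegral_prod _ mI.aemeasurable]
    have e1 : ∀ s : Sphere d, ∫⁻ q, A.indicator 1 (s, q) ∂(L.ρ.prod γT) =
        ∫⁻ ω, ∫⁻ X, A.indicator 1 (s, (ω, X)) ∂γT ∂L.ρ := fun s =>
      lintegral_prod _ (mI.comp measurable_prodMk_left).aemeasurable
    simp only [e1]
    have m2 : Measurable fun q : (Sphere d × L.Ω) × (Fin T → E d) =>
        A.indicator (1 : Sphere d × (L.Ω × (Fin T → E d)) → ℝ≥0∞) (q.1.1, (q.1.2, q.2)) :=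
      mI.comp (by fun_prop)
    rw [lintegral_lintegral_swap m2.lintegral_prod_right'.aemeasurable]
    refine (lintegral_mono fun ω => ?_).trans
      (le_of_eq (by rw [lintegral_const (ENNReal.ofReal b), measure_univ, mul_one]))
    have hm : ∀ t σ, Measurable (stpL L ω t σ) := fun t σ =>
      (mstp t σ).comp measurable_prodMk_left
    refine le_trans (le_of_eq ?_) (h ω hm)
    rw [UU, lintegral_map (measurable_val hm (fun σ => measurable_one.indicator
      Metric.isClosed_closedBall.measurableSet) _ _ _) measurable_subtype_coe]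
    refine lintegral_congr fun s => ?_
    unfold val
    refine lintegral_congr fun X => ind_congr ?_
    simp only [hA, ho, Set.mem_ofPred_eq, Metric.mem_closedBall]
  unfold RLearner.successProb
  refine le_trans (measureReal_mono (s₂ := A) (fun p hp => ?_)) ?_
  · simp only [Set.mem_ofPred_eq, RLearner.output, run_eq] at hp
    exact norm_sub_le_of_arccos (L.out_unit _ _ _) (by simp) hp
  · exact ENNReal.toReal_le_of_le_ofReal hb key

theorem succ_few (hd : 0 < d) (hT : 4 * T ≤ d) (L : RLearner d T M) {ε : ℝ} (hε : ε ≤ 1 / 10) :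
    L.successProb ε ≤ 63 / 100 := by
  refine succ_le hd L ε _ (by norm_num) fun ω _ _ _ hm => ?_
  have := UU_prob hd
  have mW : ∀ σ, Measurable ((Metric.closedBall (outL L ω σ) ε).indicator (1 : E d → ℝ≥0∞)) :=
    fun σ => measurable_one.indicator Metric.isClosed_closedBall.measurableSet
  have m1 := measurable_valI hm mW T 0 (iniL L ω)
  unfold val
  rw [lintegral_lintegral_swap m1.aemeasurable]
  refine (lintegral_mono fun X => ?_).trans
    (le_of_eq (by rw [lintegral_const (ENNReal.ofReal _), measure_univ, mul_one]))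
  have m2 : Measurable fun s : E d => outL L ω
      (run (stpL L ω) T 0 (iniL L ω) fun a => (X a, ⟪X a, s⟫)) :=
    (measurable_of_countable (outL L ω)).comp (measurable_run (Y := E d) (fun _ => stpL L ω)
      (fun t σ => (hm t σ).comp measurable_snd) T 0 _ _ measurable_const (by fun_prop))
  have mA : MeasurableSet {s : E d | s ∈ Metric.closedBall
      (outL L ω (run (stpL L ω) T 0 (iniL L ω) fun a => (X a, ⟪X a, s⟫))) ε} := by
    simp only [Metric.mem_closedBall]
    exact measurableSet_le (measurable_id'.dist m2) measurable_const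
  have h1 := few_samples hd hT X (fun z => outL L ω (run (stpL L ω) T 0 (iniL L ω) z)) hε mA
  refine le_trans (le_of_eq ?_) h1
  rw [← lintegral_indicator_one mA]
  refine lintegral_congr fun s => ind_congr ?_
  rw [Set.mem_ofPred_eq]

theorem succ_many (hd : 16 ≤ d) {a : ℕ} (hM : M ≤ a * d * (d / 8)) (L : RLearner d T M) {ε : ℝ}
    (hε0 : 0 < ε) (hε : ε ≤ 1) :
    L.successProb ε ≤ ((600 * 2 ^ a) ^ d) ^ (T / (d / 8) + 1) *
      (2 * 3 ^ d * ε ^ (d - 1 - (4 * (d / 8) + 1))) := by
  have hd0 : 0 < d := by omega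
  refine succ_le hd0 L ε _ (by positivity) fun ω _ _ _ hm => ?_
  have := UU_prob hd0
  set n := d / 8 with hn
  set j := 4 * n + 1 with hj
  have hn2 : 2 ≤ n := by omega
  have mW : ∀ σ, Measurable ((Metric.closedBall (outL L ω σ) ε).indicator (1 : E d → ℝ≥0∞)) :=
    fun σ => measurable_one.indicator Metric.isClosed_closedBall.measurableSet
  have hMor : ∀ σ c r, 0 < r → ∫⁻ s in Metric.closedBall c r,
      (Metric.closedBall (outL L ω σ) ε).indicator (1 : E d → ℝ≥0∞) s ∂(UU d) ≤
      ENNReal.ofReal (2 * 3 ^ d * ε ^ (d - 1 - j) * r ^ j) := by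
    intro σ c r hr
    rw [lintegral_indicator_one Metric.isClosed_closedBall.measurableSet,
      Measure.restrict_apply Metric.isClosed_closedBall.measurableSet]
    have e : d - 1 = d - 1 - j + j := by omega
    rcases le_total r ε with h | h
    · refine (measure_mono Set.inter_subset_right).trans ((UU_ball hd0 c hr (h.trans hε)).trans
        (ENNReal.ofReal_le_ofReal ?_))
      rw [e, pow_add, ← e, ← mul_assoc]
      gcongr
    · refine (measure_mono Set.inter_subset_left).trans ((UU_ball hd0 _ hε0 hε).trans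
        (ENNReal.ofReal_le_ofReal ?_))
      rw [e, pow_add, ← e, ← mul_assoc]
      gcongr
  have hΘ : ∀ k' ≤ n, ∀ t σ, ∃ Θ : Finset (L.St × Option ℕ),
      (Θ.card : ℝ) ≤ (4 * 2 ^ (a * d)) ^ n ∧ ∀ z, run (stpL L ω) k' t σ z ∈ Θ := by
    intro k' hk' t σ
    obtain ⟨Θ, h1, h2⟩ := run_mem L ω k' t σ
    refine ⟨Θ, ?_, h2⟩
    have h3 : Θ.card ≤ (4 * 2 ^ (a * d)) ^ n := by
      refine h1.trans ?_
      rw [mul_pow, ← pow_mul, mul_comm]
      refine Nat.mul_le_mul ?_ (Nat.pow_le_pow_right (by norm_num) hM)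
      have h4 : n < 2 ^ n := Nat.lt_two_pow_self
      have h5 : 4 ^ n = 2 ^ n * 2 ^ n := by rw [← mul_pow]; norm_num
      have h6 := Nat.mul_le_mul h4 h4
      rw [h5]
      refine le_trans ?_ h6
      simp only [Nat.succ_eq_add_one]
      nlinarith
    exact_mod_cast h3
  have hC : (1 : ℝ) + 4 * 2 ^ (a * d) * (1 + 2 ^ (n + j + 1)) * (5 ^ finrank ℝ (E d) * 32 ^ n) ≤
      (600 * 2 ^ a) ^ d := by
    rw [finrank_euclideanSpace_fin]
    have h1 : (2 : ℝ) ^ (n + j + 1) ≤ 2 ^ d := pow_le_pow_right₀ (by norm_num) (by omega)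
    have h2 : (32 : ℝ) ^ n ≤ 2 ^ d := by
      rw [show (32 : ℝ) = 2 ^ 5 by norm_num, ← pow_mul]
      exact pow_le_pow_right₀ (by norm_num) (by omega)
    have h3 : (1 : ℝ) ≤ 2 ^ d := one_le_pow₀ (by norm_num)
    have h4 : (9 : ℝ) ≤ 30 ^ d :=
      le_trans (by norm_num) (pow_le_pow_right₀ (by norm_num) (show 1 ≤ d by omega))
    have h5 : (1 : ℝ) ≤ 2 ^ (a * d) * (2 ^ d * (5 ^ d * 2 ^ d)) := by
      refine one_le_mul_of_one_le_of_one_le (one_le_pow₀ (by norm_num))
        (one_le_mul_of_one_le_of_one_le h3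
          (one_le_mul_of_one_le_of_one_le (one_le_pow₀ (by norm_num)) h3))
    calc (1 : ℝ) + 4 * 2 ^ (a * d) * (1 + 2 ^ (n + j + 1)) * (5 ^ d * 32 ^ n)
        ≤ 2 ^ (a * d) * (2 ^ d * (5 ^ d * 2 ^ d)) +
            4 * 2 ^ (a * d) * (2 ^ d + 2 ^ d) * (5 ^ d * 2 ^ d) := by gcongr
      _ = 9 * (2 ^ (a * d) * (2 ^ d * (5 ^ d * 2 ^ d))) := by ring
      _ ≤ 30 ^ d * (2 ^ (a * d) * (2 ^ d * (5 ^ d * 2 ^ d))) := by gcongr
      _ = _ := by
        rw [pow_mul, ← mul_pow, ← mul_pow, ← mul_pow, ← mul_pow]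
        congr 1
        ring
  have h1 := blocks hm (UU d) mW (by positivity) (by positivity) (show n + 1 + 3 * n ≤ j by omega)
    hMor hΘ hC (T / n + 1) T (by
      have := Nat.lt_div_mul_add (a := T) (show 0 < n by omega)
      rw [add_mul, one_mul]
      omega) 0 (iniL L ω) 0 1 one_pos
  rw [one_pow, mul_one, Measure.restrict_eq_self_of_ae_mem] at h1
  · exact h1
  · filter_upwards [UU_ae d] with s hs
    simp [hs]

theorem main : ∀ A : ℝ, 0 < A → ∃ c : ℝ, 0 < c ∧ ∃ d₀ : ℕ, ∀ d ≥ d₀, ∀ (M T : ℕ),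
      (M : ℝ) ≤ A * (d : ℝ) ^ 2 → ∀ ε : ℝ, 0 < ε → ε ≤ 1 / 10 →
        ∀ L : Crest.StreamLearn.RLearner d T M,
          2 / 3 ≤ L.successProb ε → c * d * Real.log (1 / ε) ≤ T := by
  intro A hA
  set a := ⌈16 * A⌉₊ with ha
  set K : ℝ := Real.log (600 * 2 ^ a) with hK
  have hK0 : 0 < K := Real.log_pos (by
    have : (1 : ℝ) ≤ 2 ^ a := one_le_pow₀ (by norm_num)
    linarith)
  have h3 : 0 < Real.log 3 := Real.log_pos (by norm_num)
  refine ⟨1 / (32 * Real.log 3 + 96 * K), by positivity, 16, fun d hd M T hM ε hε0 hε L hL => ?_⟩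
  have hT : d < 4 * T := by
    by_contra hc
    have := succ_few (by omega) (not_lt.mp hc) L hε
    linarith
  set n := d / 8 with hn
  have hn1 : d ≤ 16 * n := by omega
  have hMa : M ≤ a * d * n := by
    have h1 : 16 * A ≤ a := Nat.le_ceil _
    have h2 : (d : ℝ) ≤ 16 * n := by exact_mod_cast hn1
    have h4 : (M : ℝ) ≤ a * d * n := by
      have hd0 : (0 : ℝ) ≤ d := Nat.cast_nonneg d
      have hn0 : (0 : ℝ) ≤ n := Nat.cast_nonneg n
      calc (M : ℝ) ≤ A * d * d := by linarith
        _ ≤ A * d * (16 * n) := by gcongr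
        _ = 16 * A * d * n := by ring
        _ ≤ a * d * n := by gcongr
    exact_mod_cast h4
  have h1 := hL.trans (succ_many hd hMa L hε0 (by linarith))
  have h2 := Real.log_le_log (by norm_num) h1
  rw [Real.log_mul (by positivity) (by positivity), Real.log_pow, Real.log_pow, ← hK,
    Real.log_mul (by positivity) (by positivity), Real.log_mul (by positivity) (by positivity),
    Real.log_pow, Real.log_pow, Real.log_div (by norm_num) (by norm_num), ← hn] at h2
  have hL0 : 0 ≤ Real.log (1 / ε) := Real.log_nonneg (by rw [le_div_iff₀ hε0]; linarith)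
  have hl : Real.log ε = -Real.log (1 / ε) := by rw [one_div, Real.log_inv, neg_neg]
  rw [hl] at h2
  have h4 : (d : ℝ) ≤ 4 * ((d - 1 - (4 * n + 1) : ℕ) : ℝ) := by
    exact_mod_cast (by omega : d ≤ 4 * (d - 1 - (4 * n + 1)))
  have h5 : ((T / n + 1 : ℕ) : ℝ) * d ≤ 24 * T := by
    have h6 : T / n * n ≤ T := Nat.div_mul_le_self T n
    have h7 : (T / n + 1) * d ≤ 24 * T := by
      calc (T / n + 1) * d ≤ (T / n + 1) * (16 * n) := Nat.mul_le_mul_left _ hn1
        _ = 16 * (T / n * n) + 16 * n := by ring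
        _ ≤ 24 * T := by omega
    exact_mod_cast h7
  have h8 : (d : ℝ) + 1 ≤ 4 * T := by exact_mod_cast hT
  rw [one_div, mul_assoc, inv_mul_le_iff₀ (by positivity)]
  have h9 : ((T / n + 1 : ℕ) : ℝ) * (d * K) ≤ 24 * T * K := by
    rw [← mul_assoc]
    exact mul_le_mul_of_nonneg_right h5 hK0.le
  nlinarith [mul_le_mul_of_nonneg_right h4 hL0, mul_le_mul_of_nonneg_right h8 h3.le,
    Nat.cast_nonneg (α := ℝ) T]

end Crest.Agent.R322
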