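import Crest.Agent.R322.Gauss

/-! Row 322: the restricted type estimate for the law of (samples, measurements). -/

set_option autoImplicit false

namespace Crest.Agent.R322

open MeasureTheory ProbabilityTheory Filter Topology
open scoped ENNReal RealInnerProductSpace

variable {E : Type} [NormedAddCommGroup E] [InnerProductSpace ℝ E] [FiniteDimensional ℝ E]
  [MeasurableSpace E] [BorelSpace E]

/-- the thickened slice kernel -/
noncomputable def KK (κ : ℝ → ℝ≥0∞) {k : ℕ} (z : (Fin k → E) × (Fin k → ℝ)) (s : E) : ℝ≥0∞ :=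
  ∏ a, κ (z.2 a - ⟪z.1 a, s⟫)

lemma measurable_KK {κ : ℝ → ℝ≥0∞} (mκ : Measurable κ) (k : ℕ) :
    Measurable fun p : ((Fin k → E) × (Fin k → ℝ)) × E => KK κ p.1 p.2 := by
  unfold KK
  exact Finset.measurable_prod _ fun a _ => by fun_prop

lemma measurable_KK' {κ : ℝ → ℝ≥0∞} (mκ : Measurable κ) (k : ℕ) (s : E) :
    Measurable fun z : (Fin k → E) × (Fin k → ℝ) => KK κ z s := by
  unfold KK
  exact Finset.measurable_prod _ fun a _ => by fun_prop

lemma list_prod_comm {β ι : Type*} [Fintype ι] (l : List β) (f : β → ι → ℝ≥0∞) :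
    (l.map fun w => ∏ a, f w a).prod = ∏ a, (l.map fun w => f w a).prod := by
  induction l with
  | nil => simp
  | cons w l ih => simp only [List.map_cons, List.prod_cons, ih, Finset.prod_mul_distrib]

lemma lam_list {κ : ℝ → ℝ≥0∞} (mκ : Measurable κ) (hκ : ∫⁻ t, κ t ≤ 1) (k : ℕ) (a : E)
    (l : List E) :
    ∫⁻ z, KK κ z a * (l.map fun w => KK κ z (a + w)).prod ∂(lam E k) ≤ bet l ^ k := by
  have m1 : Measurable fun z : E × ℝ =>
      κ (z.2 - ⟪z.1, a⟫) * (l.map fun w => κ (z.2 - ⟪z.1, a + w⟫)).prod :=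
    Measurable.mul (by fun_prop) (measurable_listProd l _ fun w => by fun_prop)
  have h := lintegral_lam_prod k _ m1
  refine le_trans (le_of_eq ?_) (h.le.trans (pow_le_pow_left' (gauss_row mκ hκ a l) k))
  refine lintegral_congr fun z => ?_
  simp only [KK, list_prod_comm, Finset.prod_mul_distrib]

section
variable {κ : ℝ → ℝ≥0∞} (mκ : Measurable κ) (hκ : ∫⁻ t, κ t ≤ 1) (k : ℕ) (ν : Measure E)
  [SFinite ν] {n : ℕ} {D : ℝ≥0∞}
  (hD : ∀ (a : E) (l : List E), l.length ≤ n →
    ∫⁻ s, (ENNReal.ofReal (dd l (s - a)))⁻¹ ^ k ∂ν ≤ D)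
include mκ hκ hD

lemma moment_aux (a : E) (r : ℕ) : ∀ l : List E, l.length + r ≤ n →
    ∫⁻ z, (∫⁻ s, KK κ z s ∂ν) ^ r * (KK κ z a * (l.map fun w => KK κ z (a + w)).prod) ∂(lam E k) ≤
      D ^ r * bet l ^ k := by
  have mp : Measurable fun z : (Fin k → E) × (Fin k → ℝ) => ∫⁻ s, KK κ z s ∂ν :=
    (measurable_KK mκ k).lintegral_prod_right'
  induction r with
  | zero =>
    intro l _
    simpa using lam_list mκ hκ k a l
  | succ r ih =>
    intro l hl
    have mq : Measurable fun z : (Fin k → E) × (Fin k → ℝ) =>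
        (∫⁻ s, KK κ z s ∂ν) ^ r * (KK κ z a * (l.map fun w => KK κ z (a + w)).prod) :=
      (mp.pow_const r).mul ((measurable_KK' mκ k a).mul
        (measurable_listProd l _ fun w => measurable_KK' mκ k _))
    have e : ∀ z : (Fin k → E) × (Fin k → ℝ),
        (∫⁻ s, KK κ z s ∂ν) ^ (r + 1) * (KK κ z a * (l.map fun w => KK κ z (a + w)).prod) =
        ∫⁻ s', (∫⁻ s, KK κ z s ∂ν) ^ r * (KK κ z a * (l.map fun w => KK κ z (a + w)).prod) *
          KK κ z s' ∂ν := by
      intro z
      have m0 : Measurable fun s' : E => KK κ z s' :=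
        (measurable_KK mκ k).comp (measurable_const.prodMk measurable_id)
      rw [lintegral_const_mul _ m0]
      ring
    simp only [e]
    rw [lintegral_lintegral_swap ((mq.comp measurable_fst).mul (measurable_KK mκ k)).aemeasurable]
    have mdd : Measurable fun s : E => (ENNReal.ofReal (dd l (s - a)))⁻¹ ^ k := by
      unfold dd
      fun_prop
    calc ∫⁻ s', ∫⁻ z, (∫⁻ s, KK κ z s ∂ν) ^ r *
          (KK κ z a * (l.map fun w => KK κ z (a + w)).prod) * KK κ z s' ∂(lam E k) ∂ν
        ≤ ∫⁻ s', D ^ r * bet l ^ k * (ENNReal.ofReal (dd l (s' - a)))⁻¹ ^ k ∂ν := by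
          refine lintegral_mono fun s' => ?_
          have := ih ((s' - a) :: l) (by simp only [List.length_cons]; omega)
          simp only [List.map_cons, List.prod_cons, add_sub_cancel, bet, mul_pow] at this
          refine le_trans (le_of_eq ?_) (this.trans (le_of_eq ?_))
          · refine lintegral_congr fun z => ?_
            ring
          · ring
      _ = D ^ r * bet l ^ k * ∫⁻ s', (ENNReal.ofReal (dd l (s' - a)))⁻¹ ^ k ∂ν :=
          lintegral_const_mul _ mdd
      _ ≤ D ^ r * bet l ^ k * D := mul_le_mul_right (hD a l (by omega)) _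
      _ = _ := by ring

lemma moment : ∫⁻ z, (∫⁻ s, KK κ z s ∂ν) ^ (n + 1) ∂(lam E k) ≤ D ^ n * ν Set.univ := by
  have mp : Measurable fun z : (Fin k → E) × (Fin k → ℝ) => ∫⁻ s, KK κ z s ∂ν :=
    (measurable_KK mκ k).lintegral_prod_right'
  have e : ∀ z : (Fin k → E) × (Fin k → ℝ), (∫⁻ s, KK κ z s ∂ν) ^ (n + 1) =
      ∫⁻ s', (∫⁻ s, KK κ z s ∂ν) ^ n * KK κ z s' ∂ν := by
    intro z
    have m0 : Measurable fun s' : E => KK κ z s' :=
      (measurable_KK mκ k).comp (measurable_const.prodMk measurable_id)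
    rw [lintegral_const_mul _ m0, pow_succ]
  simp only [e]
  rw [lintegral_lintegral_swap
    (((mp.pow_const n).comp measurable_fst).mul (measurable_KK mκ k)).aemeasurable]
  calc ∫⁻ s', ∫⁻ z, (∫⁻ s, KK κ z s ∂ν) ^ n * KK κ z s' ∂(lam E k) ∂ν ≤ ∫⁻ _, D ^ n ∂ν := by
        refine lintegral_mono fun s' => ?_
        simpa [bet] using moment_aux mκ hκ k ν hD s' n [] (by simp)
    _ = _ := lintegral_const _

end

/-- the normalised box kernel -/
noncomputable def box (δ : ℝ) : ℝ → ℝ≥0∞ :=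
  (Set.Icc (-δ) δ).indicator fun _ => (ENNReal.ofReal (2 * δ))⁻¹

lemma measurable_box (δ : ℝ) : Measurable (box δ) := measurable_const.indicator measurableSet_Icc

lemma lintegral_box {δ : ℝ} (hδ : 0 < δ) : ∫⁻ t, box δ t = 1 := by
  rw [box, lintegral_indicator_const measurableSet_Icc, Real.volume_Icc,
    show δ - -δ = 2 * δ by ring, ENNReal.inv_mul_cancel (by simpa using hδ) ENNReal.ofReal_ne_top]

/-- the data seen by the learner -/
noncomputable def gr {k : ℕ} (X : Fin k → E) (s : E) : (Fin k → E) × (Fin k → ℝ) :=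
  (X, fun a => ⟪X a, s⟫)

lemma measurable_gr (k : ℕ) : Measurable fun p : E × (Fin k → E) => gr p.2 p.1 := by
  unfold gr
  fun_prop

lemma young (p θ : ℝ≥0∞) (h0 : θ ≠ 0) (h1 : θ ≠ ⊤) (n : ℕ) : p ≤ θ + p ^ (n + 1) * (θ ^ n)⁻¹ := by
  rcases le_total p θ with h | h
  · exact h.trans le_self_add
  · refine le_trans ?_ le_add_self
    rw [← div_eq_mul_inv, ENNReal.le_div_iff_mul_le (Or.inl (pow_ne_zero n h0))
      (Or.inl (ENNReal.pow_ne_top h1)), pow_succ']
    exact mul_le_mul_right (pow_le_pow_left' h n) p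

theorem restricted (k : ℕ) (ν : Measure E) [SFinite ν] {n : ℕ} {D : ℝ≥0∞}
    (hD : ∀ (a : E) (l : List E), l.length ≤ n →
      ∫⁻ s, (ENNReal.ofReal (dd l (s - a)))⁻¹ ^ k ∂ν ≤ D)
    {θ : ℝ≥0∞} (h0 : θ ≠ 0) (h1 : θ ≠ ⊤) (S : Set ((Fin k → E) × (Fin k → ℝ))) :
    ∫⁻ s, (Measure.pi fun _ : Fin k => stdGaussian E) {X | gr X s ∈ S} ∂ν ≤
      θ * lam E k S + D ^ n * ν Set.univ * (θ ^ n)⁻¹ := by
  have hopen : ∀ O : Set ((Fin k → E) × (Fin k → ℝ)), IsOpen O →
      ∫⁻ s, (Measure.pi fun _ : Fin k => stdGaussian E) {X | gr X s ∈ O} ∂ν ≤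
        θ * lam E k O + D ^ n * ν Set.univ * (θ ^ n)⁻¹ := by
    intro O hO
    have mO := hO.measurableSet
    set γk := (Measure.pi fun _ : Fin k => stdGaussian E) with hγ
    set g : ℕ → E × (Fin k → E) → ℝ≥0∞ := fun m p =>
      ∫⁻ y, O.indicator 1 (p.2, y) * KK (box (1 / ((m : ℝ) + 1))) (p.2, y) p.1
        ∂(Measure.pi fun _ : Fin k => volume) with hg
    have mI : ∀ δ : ℝ, Measurable fun q : (E × (Fin k → E)) × (Fin k → ℝ) =>
        O.indicator (1 : (Fin k → E) × (Fin k → ℝ) → ℝ≥0∞) (q.1.2, q.2) * KK (box δ) (q.1.2, q.2) q.1.1 := fun δ =>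
      ((measurable_one.indicator mO).comp
        (f := fun q : (E × (Fin k → E)) × (Fin k → ℝ) => (q.1.2, q.2)) (by fun_prop)).mul
        ((measurable_KK (measurable_box δ) k).comp
          (f := fun q : (E × (Fin k → E)) × (Fin k → ℝ) => ((q.1.2, q.2), q.1.1)) (by fun_prop))
    have mg : ∀ m, Measurable (g m) := fun m => (mI _).lintegral_prod_right'
    have mS : MeasurableSet {p : E × (Fin k → E) | gr p.2 p.1 ∈ O} := measurable_gr k mO
    have e1 : ∫⁻ s, γk {X | gr X s ∈ O} ∂ν = (ν.prod γk) {p | gr p.2 p.1 ∈ O} := by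
      rw [Measure.prod_apply mS]
      rfl
    have hlim : ∀ p : E × (Fin k → E), {p : E × (Fin k → E) | gr p.2 p.1 ∈ O}.indicator 1 p ≤
        liminf (fun m => g m p) atTop := by
      intro p
      by_cases hp : gr p.2 p.1 ∈ O
      swap
      · rw [Set.indicator_of_notMem (by exact hp)]
        exact zero_le
      rw [Set.indicator_of_mem (by exact hp), Pi.one_apply]
      refine le_liminf_of_le (by isBoundedDefault) ?_
      obtain ⟨r, hr, hball⟩ := Metric.isOpen_iff.mp hO _ hp
      obtain ⟨m0, hm0⟩ := exists_nat_one_div_lt hr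
      filter_upwards [eventually_ge_atTop m0] with m hm
      have hδ : (0 : ℝ) < 1 / ((m : ℝ) + 1) := by positivity
      have hδr : 1 / ((m : ℝ) + 1) < r := lt_of_le_of_lt (Nat.one_div_le_one_div hm) hm0
      set δ : ℝ := 1 / ((m : ℝ) + 1)
      have h2 := lintegral_pi_prod (volume : Measure ℝ) k
        (fun a y => box δ (y - ⟪p.2 a, p.1⟫)) fun a => (measurable_box δ).comp (by fun_prop)
      simp only [lintegral_sub_right_eq_self (box δ), lintegral_box hδ, Finset.prod_const_one] at h2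
      rw [← h2]
      refine lintegral_mono fun y => ?_
      by_cases hy : ∀ a, y a - ⟪p.2 a, p.1⟫ ∈ Set.Icc (-δ) δ
      · have : (p.2, y) ∈ O := by
          refine hball ?_
          rw [Metric.mem_ball, gr, Prod.dist_eq, dist_self, max_lt_iff]
          refine ⟨hr, lt_of_le_of_lt ((dist_pi_le_iff hδ.le).mpr fun a => ?_) hδr⟩
          rw [Real.dist_eq, abs_le]
          exact hy a
        rw [Set.indicator_of_mem this, Pi.one_apply, one_mul]
        exact le_rfl
      · push Not at hy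
        obtain ⟨a, ha⟩ := hy
        rw [Finset.prod_eq_zero (Finset.mem_univ a) (by
          simp only [box]; exact Set.indicator_of_notMem ha _)]
        exact zero_le
    have hbd : ∀ m, ∫⁻ p, g m p ∂(ν.prod γk) ≤ θ * lam E k O + D ^ n * ν Set.univ * (θ ^ n)⁻¹ := by
      intro m
      have hδ : (0 : ℝ) < 1 / ((m : ℝ) + 1) := by positivity
      set δ : ℝ := 1 / ((m : ℝ) + 1)
      have mK := measurable_KK (E := E) (measurable_box δ) k
      have mJ : Measurable fun q : E × ((Fin k → E) × (Fin k → ℝ)) =>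
          O.indicator (1 : (Fin k → E) × (Fin k → ℝ) → ℝ≥0∞) q.2 * KK (box δ) q.2 q.1 :=
        ((measurable_one.indicator mO).comp measurable_snd).mul
          (mK.comp (f := fun q : E × ((Fin k → E) × (Fin k → ℝ)) => (q.2, q.1)) (by fun_prop))
      have mp : Measurable fun z : (Fin k → E) × (Fin k → ℝ) => ∫⁻ s, KK (box δ) z s ∂ν :=
        mK.lintegral_prod_right'
      have e2 : ∫⁻ p, g m p ∂(ν.prod γk) =
          ∫⁻ z, O.indicator 1 z * ∫⁻ s, KK (box δ) z s ∂ν ∂(lam E k) := by
        rw [lintegral_prod _ (mg m).aemeasurable]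
        have e3 : ∀ s, ∫⁻ X, g m (s, X) ∂γk =
            ∫⁻ z, O.indicator 1 z * KK (box δ) z s ∂(lam E k) := by
          intro s
          have m4 : Measurable fun z : (Fin k → E) × (Fin k → ℝ) =>
              O.indicator (1 : (Fin k → E) × (Fin k → ℝ) → ℝ≥0∞) z * KK (box δ) z s :=
            (measurable_one.indicator mO).mul (measurable_KK' (measurable_box δ) k s)
          rw [lam, lintegral_prod _ m4.aemeasurable]
        simp only [e3]
        rw [lintegral_lintegral_swap mJ.aemeasurable]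
        refine lintegral_congr fun z => ?_
        exact lintegral_const_mul _ (mK.comp (measurable_const.prodMk measurable_id))
      rw [e2]
      calc ∫⁻ z, O.indicator 1 z * ∫⁻ s, KK (box δ) z s ∂ν ∂(lam E k)
          ≤ ∫⁻ z, (O.indicator (fun _ => θ) z +
              (∫⁻ s, KK (box δ) z s ∂ν) ^ (n + 1) * (θ ^ n)⁻¹) ∂(lam E k) := by
            refine lintegral_mono fun z => ?_
            by_cases hz : z ∈ O
            · simp only [Set.indicator_of_mem hz, Pi.one_apply, one_mul]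
              exact young _ θ h0 h1 n
            · simp [Set.indicator_of_notMem hz]
        _ = θ * lam E k O + (∫⁻ z, (∫⁻ s, KK (box δ) z s ∂ν) ^ (n + 1) ∂(lam E k)) * (θ ^ n)⁻¹ := by
            rw [lintegral_add_left (measurable_const.indicator mO), lintegral_indicator_const mO,
              lintegral_mul_const _ (mp.pow_const _)]
        _ ≤ _ := add_le_add le_rfl (mul_le_mul_left
            (moment (measurable_box δ) (lintegral_box hδ).le k ν hD) _)
    rw [e1, ← lintegral_indicator_one mS]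
    exact (lintegral_mono hlim).trans ((lintegral_liminf_le mg).trans
      (liminf_le_of_frequently_le' (Frequently.of_forall hbd)))
  have : IsLocallyFiniteMeasure (lam E k) := by
    unfold lam
    infer_instance
  refine ENNReal.le_of_forall_pos_le_add fun ε hε _ => ?_
  obtain ⟨O, hSO, hO, hle⟩ := Set.exists_isOpen_le_add S (lam E k) (ε := ε * θ⁻¹)
    (mul_ne_zero (by simpa using hε.ne') (ENNReal.inv_ne_zero.mpr h1))
  calc ∫⁻ s, (Measure.pi fun _ : Fin k => stdGaussian E) {X | gr X s ∈ S} ∂ν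
      ≤ ∫⁻ s, (Measure.pi fun _ : Fin k => stdGaussian E) {X | gr X s ∈ O} ∂ν :=
        lintegral_mono fun s => measure_mono fun X hX => hSO hX
    _ ≤ θ * lam E k O + D ^ n * ν Set.univ * (θ ^ n)⁻¹ := hopen O hO
    _ ≤ θ * (lam E k S + ε * θ⁻¹) + D ^ n * ν Set.univ * (θ ^ n)⁻¹ :=
        add_le_add (mul_le_mul_right hle _) le_rfl
    _ = _ := by
        rw [mul_add, mul_comm (ε : ℝ≥0∞), ← mul_assoc θ θ⁻¹, ENNReal.mul_inv_cancel h0 h1]
        ring

end Crest.Agent.R322
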